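import Vale.Agent.P015.R3.H85.Unique

/-!
# P015, one cluster: clusters with more than `N(m)` elements
-/

namespace Vale.Agent.P015.R3.H85

open GaussianInt

/-- a set of more than `N(m)` Gaussian integers contains two that are congruent modulo `m` -/
theorem exists_congr {m : GaussianInt} (hm : m ≠ 0) (T : Finset GaussianInt)
    (hT : m.norm < T.card) : ∃ x ∈ T, ∃ y ∈ T, x ≠ y ∧ m ∣ x - y := by
  obtain ⟨c, d⟩ := m
  have hgpos : 0 < (Int.gcd c d : ℤ) := by
    have : Int.gcd c d ≠ 0 := by
      intro h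
      rw [Int.gcd_eq_zero_iff] at h
      exact hm (by rw [Zsqrtd.ext_iff]; exact h)
    omega
  obtain ⟨c', hc⟩ : (Int.gcd c d : ℤ) ∣ c := Int.gcd_dvd_left c d
  obtain ⟨d', hd⟩ : (Int.gcd c d : ℤ) ∣ d := Int.gcd_dvd_right c d
  have hbez := Int.gcd_eq_gcd_ab c d
  generalize Int.gcdA c d = t at hbez
  generalize Int.gcdB c d = s at hbez
  generalize (Int.gcd c d : ℤ) = g at *
  have hcd : 0 < c' * c' + d' * d' := by
    rcases eq_or_ne c' 0 with h | h
    · rcases eq_or_ne d' 0 with h' | h'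
      · rw [h, mul_zero] at hc
        rw [h', mul_zero] at hd
        rw [hc, hd] at hbez
        simp at hbez
        omega
      · have := mul_self_pos.2 h'
        nlinarith [mul_self_nonneg c']
    · have := mul_self_pos.2 h
      nlinarith [mul_self_nonneg d']
  obtain ⟨h, hh⟩ : ∃ h : ℤ, h = g * (c' * c' + d' * d') := ⟨_, rfl⟩
  have hhpos : 0 < h := hh ▸ mul_pos hgpos hcd
  obtain ⟨e, he⟩ : ∃ e : GaussianInt, e = ⟨c, d⟩ * ⟨s, t⟩ := ⟨_, rfl⟩
  have heim : e.im = g := by
    rw [he, hbez]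
    simp [Zsqrtd.im_mul]
  have hmh : (⟨c, d⟩ : GaussianInt) * ⟨c', -d'⟩ = (h : GaussianInt) := by
    rw [Zsqrtd.ext_iff]
    constructor
    · simp only [Zsqrtd.re_mul, Zsqrtd.re_intCast]
      rw [hh]
      nth_rewrite 1 [hc]
      nth_rewrite 1 [hd]
      ring
    · simp only [Zsqrtd.im_mul, Zsqrtd.im_intCast]
      nth_rewrite 1 [hc]
      nth_rewrite 1 [hd]
      ring
  have hcard : ((Finset.Ico 0 g ×ˢ Finset.Ico 0 h).card : ℤ) = (⟨c, d⟩ : GaussianInt).norm := by
    rw [Finset.card_product, Int.card_Ico, Int.card_Ico, Zsqrtd.norm_def]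
    push_cast
    rw [Int.toNat_of_nonneg (by omega), Int.toNat_of_nonneg (by omega), hh]
    have e1 : c * c = g * c' * (g * c') := by rw [← hc]
    have e2 : d * d = g * d' * (g * d') := by rw [← hd]
    linear_combination -e1 - e2
  obtain ⟨x, hx, y, hy, hxy, hmap⟩ := Finset.exists_ne_map_eq_of_card_lt_of_maps_to
    (s := T) (t := Finset.Ico 0 g ×ˢ Finset.Ico 0 h)
    (f := fun z : GaussianInt => (z.im % g, (z.re - (z.im / g) * e.re) % h))
    (by
      have := hcard ▸ hT
      exact_mod_cast this)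
    (fun z _ => by
      simp only [Finset.coe_product, Finset.coe_Ico, Set.mem_prod, Set.mem_Ico]
      exact ⟨⟨Int.emod_nonneg _ hgpos.ne', Int.emod_lt_of_pos _ hgpos⟩,
        ⟨Int.emod_nonneg _ hhpos.ne', Int.emod_lt_of_pos _ hhpos⟩⟩)
  refine ⟨x, hx, y, hy, hxy, ?_⟩
  simp only [Prod.mk.injEq] at hmap
  obtain ⟨h1, h2⟩ := hmap
  obtain ⟨k, hk⟩ := Int.ModEq.dvd (show Int.ModEq h _ _ from h2.symm)
  have h3 := Int.emod_add_mul_ediv x.im g
  have h4 := Int.emod_add_mul_ediv y.im g
  have h5 : x - y = (⟨c, d⟩ : GaussianInt) *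
      (⟨c', -d'⟩ * k + ⟨s, t⟩ * ((x.im / g - y.im / g : ℤ) : GaussianInt)) := by
    rw [mul_add, ← mul_assoc, ← mul_assoc, hmh, ← he, Zsqrtd.ext_iff]
    constructor
    · simp only [Zsqrtd.re_sub, Zsqrtd.re_add, Zsqrtd.re_mul, Zsqrtd.re_intCast,
        Zsqrtd.im_intCast]
      linear_combination hk
    · simp only [Zsqrtd.im_sub, Zsqrtd.im_add, Zsqrtd.im_mul, Zsqrtd.re_intCast,
        Zsqrtd.im_intCast]
      rw [heim]
      linear_combination h1 - h3 + h4
  exact ⟨_, h5⟩

/-- multiplication by `i` preserves distances -/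
theorem dist_I_mul (z w : GaussianInt) :
    dist (toComplex (⟨0, 1⟩ * z)) (toComplex (⟨0, 1⟩ * w)) = dist (toComplex z) (toComplex w) := by
  have h : toComplex ⟨0, 1⟩ = Complex.I := by
    apply Complex.ext <;> simp
  rw [map_mul, map_mul, h, dist_eq_norm, dist_eq_norm, ← mul_sub, norm_mul, Complex.norm_I,
    one_mul]

theorem isUnit_I : IsUnit (⟨0, 1⟩ : GaussianInt) :=
  IsUnit.of_mul_eq_one ⟨0, -1⟩ (by decide)

theorem sieved_I (m : GaussianInt) {z : GaussianInt} (h : z ∈ sieved m) :
    ⟨0, 1⟩ * z ∈ sieved m :=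
  (isCoprime_mul_unit_left_left isUnit_I z m).2 h

theorem sieved_add {m z : GaussianInt} (h : z ∈ sieved m) (u : GaussianInt) :
    z + m * u ∈ sieved m :=
  (IsCoprime.add_mul_left_left_iff).2 h

theorem sieved_add_of_dvd {m v z : GaussianInt} (hv : m ∣ v) (h : z ∈ sieved m) :
    z + v ∈ sieved m := by
  obtain ⟨u, rfl⟩ := hv
  exact sieved_add h u

theorem sieved_add_int {m v : GaussianInt} (hv : m ∣ v) :
    ∀ z ∈ sieved m, ∀ k : ℤ, z + k * v ∈ sieved m :=
  fun _ hz _ => sieved_add_of_dvd (Dvd.dvd.mul_left hv _) hz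

/-- `x` is joined to a different point congruent to it -/
def Per (D : ℝ) (m x : GaussianInt) : Prop :=
  ∃ v : GaussianInt, v ≠ 0 ∧ m ∣ v ∧ (walkGraph D (sieved m)).Reachable x (x + v)

theorem reach_I {D : ℝ} {m x y : GaussianInt} (h : (walkGraph D (sieved m)).Reachable x y) :
    (walkGraph D (sieved m)).Reachable (⟨0, 1⟩ * x) (⟨0, 1⟩ * y) :=
  reach_map (T := sieved m) (fun z : GaussianInt => (⟨0, 1⟩ : GaussianInt) * z)
    (mul_right_injective₀ isUnit_I.ne_zero) (fun z hz => sieved_I m (z := z) hz)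
    dist_I_mul h

theorem sq_ne {v : GaussianInt} (hv : v ≠ 0) :
    (toComplex v).re * (toComplex v).re + (toComplex v).im * (toComplex v).im ≠ 0 := by
  intro h
  apply hv
  rw [← toComplex_eq_zero]
  have h1 := mul_self_nonneg (toComplex v).re
  have h2 := mul_self_nonneg (toComplex v).im
  exact Complex.ext (mul_self_eq_zero.1 (by linarith)) (mul_self_eq_zero.1 (by linarith))

theorem toComplex_I_mul (v : GaussianInt) :
    (toComplex (⟨0, 1⟩ * v)).re = -(toComplex v).im ∧
      (toComplex (⟨0, 1⟩ * v)).im = (toComplex v).re := by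
  have h : toComplex ⟨0, 1⟩ = Complex.I := by
    apply Complex.ext <;> simp
  rw [map_mul, h]
  simp

theorem Per.reach_rot {D : ℝ} {m x : GaussianInt} (h : Per D m x) :
    (walkGraph D (sieved m)).Reachable x (⟨0, 1⟩ * x) := by
  obtain ⟨v, hv0, hv, hr⟩ := h
  have hr' := reach_I hr
  rw [mul_add] at hr'
  refine reach_of_independent (sieved_add_int hv) (sieved_add_int (Dvd.dvd.mul_left hv _)) ?_ hr hr'
  rw [(toComplex_I_mul v).1, (toComplex_I_mul v).2]
  intro h
  exact sq_ne hv0 (by linear_combination h)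

/-- **Uniqueness.** -/
theorem Per.reach {D : ℝ} {m x y : GaussianInt} (h : Per D m x) (h' : Per D m y) :
    (walkGraph D (sieved m)).Reachable x y := by
  have h0 := h
  obtain ⟨v, hv0, hv, hr⟩ := h
  obtain ⟨w, hw0, hw, hs⟩ := h'
  by_cases hdet : (toComplex v).re * (toComplex w).im - (toComplex v).im * (toComplex w).re = 0
  · have hr' := reach_I hr
    rw [mul_add] at hr'
    refine h0.reach_rot.trans (reach_of_independent
      (sieved_add_int (Dvd.dvd.mul_left hv _)) (sieved_add_int hw) ?_ hr' hs)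
    rw [(toComplex_I_mul v).1, (toComplex_I_mul v).2]
    intro h2
    have h3 := sq_ne hv0
    have h4 : ((toComplex v).re * (toComplex v).re + (toComplex v).im * (toComplex v).im) *
        (toComplex w).re = 0 := by
      linear_combination (-(toComplex v).re) * h2 - (toComplex v).im * hdet
    have h5 : ((toComplex v).re * (toComplex v).re + (toComplex v).im * (toComplex v).im) *
        (toComplex w).im = 0 := by
      linear_combination (-(toComplex v).im) * h2 + (toComplex v).re * hdet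
    have h6 := (mul_eq_zero.1 h4).resolve_left h3
    have h7 := (mul_eq_zero.1 h5).resolve_left h3
    exact hw0 (toComplex_eq_zero.1 (Complex.ext h6 h7))
  · exact reach_of_independent (sieved_add_int hv) (sieved_add_int hw) hdet hr hs

theorem Per.add {D : ℝ} {m x : GaussianInt} (h : Per D m x) (u : GaussianInt) :
    Per D m (x + m * u) := by
  obtain ⟨v, hv0, hv, hr⟩ := h
  refine ⟨v, hv0, hv, ?_⟩
  have := reach_add (T := sieved m) (m * u) (fun z hz => sieved_add hz u) hr
  rwa [add_right_comm] at this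

theorem Per.of_reach {D : ℝ} {m x y : GaussianInt} (h : Per D m x)
    (hxy : (walkGraph D (sieved m)).Reachable x y) : Per D m y := by
  obtain ⟨v, hv0, hv, hr⟩ := h
  refine ⟨v, hv0, hv, ?_⟩
  have := reach_add (T := sieved m) v (fun z hz => sieved_add_of_dvd hv hz) hxy
  exact hxy.symm.trans (hr.trans this)

theorem Per.infinite {D : ℝ} {m x : GaussianInt} (h : Per D m x) : (cluster D m x).Infinite := by
  have h0 := h
  obtain ⟨v, hv0, ⟨u, hu⟩, hr⟩ := h
  refine Set.infinite_of_injective_forall_mem (f := fun k : ℕ => x + m * (k * u)) ?_ ?_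
  · intro k l hkl
    have h1 : ((k : GaussianInt) - l) * v = 0 := by
      have : x + m * (k * u) = x + m * (l * u) := hkl
      rw [hu]
      linear_combination this
    have h2 := (mul_eq_zero.1 h1).resolve_right hv0
    have h3 : (k : GaussianInt) = l := sub_eq_zero.1 h2
    exact_mod_cast h3
  · intro k
    exact h0.reach (h0.add _)

/-- a set of residue classes has at most `N(m)` elements -/
theorem card_quot_le {m : GaussianInt} (hm : m ≠ 0)
    (Q : Finset (GaussianInt ⧸ Ideal.span {m})) : Q.card ≤ m.norm.natAbs := by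
  classical
  by_contra hcon
  push Not at hcon
  have hinj : Function.Injective
      (Quotient.out : GaussianInt ⧸ Ideal.span {m} → GaussianInt) := Quotient.out_injective
  have hn : (0 : ℤ) ≤ m.norm := norm_nonneg m
  obtain ⟨x, hx, y, hy, hxy, hd⟩ := exists_congr hm (Q.image Quotient.out) (by
    rw [Finset.card_image_of_injective _ hinj]
    omega)
  rw [Finset.mem_image] at hx hy
  obtain ⟨a, -, rfl⟩ := hx
  obtain ⟨b, -, rfl⟩ := hy
  apply hxy
  have h1 : Ideal.Quotient.mk (Ideal.span {m}) (Quotient.out a) =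
      Ideal.Quotient.mk (Ideal.span {m}) (Quotient.out b) :=
    Ideal.Quotient.eq.2 (Ideal.mem_span_singleton.2 hd)
  rw [Ideal.Quotient.mk_out, Ideal.Quotient.mk_out] at h1
  rw [h1]

theorem finite_quot {m : GaussianInt} (hm : m ≠ 0) : Finite (GaussianInt ⧸ Ideal.span {m}) := by
  by_contra hcon
  rw [not_finite_iff_infinite] at hcon
  obtain ⟨Q, hQ⟩ := Infinite.exists_subset_card_eq (GaussianInt ⧸ Ideal.span {m})
    (m.norm.natAbs + 1)
  have := card_quot_le hm Q
  omega

theorem phi_le_norm {m : GaussianInt} (hm : m ≠ 0) : phi m ≤ m.norm.natAbs := by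
  have hf := finite_quot hm
  have h1 : phi m ≤ Nat.card (GaussianInt ⧸ Ideal.span {m}) :=
    Nat.card_le_card_of_injective Units.val Units.val_injective
  refine h1.trans ?_
  have := Fintype.ofFinite (GaussianInt ⧸ Ideal.span {m})
  rw [Nat.card_eq_fintype_card]
  exact card_quot_le hm Finset.univ

theorem phi_pos {m : GaussianInt} (hm : m ≠ 0) : 0 < phi m := by
  have hf := finite_quot hm
  exact Nat.card_pos

theorem isUnit_mk {m x : GaussianInt} (h : IsCoprime x m) :
    IsUnit (Ideal.Quotient.mk (Ideal.span {m}) x) := by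
  obtain ⟨a, b, hab⟩ := h
  have h1 := congrArg (Ideal.Quotient.mk (Ideal.span {m})) hab
  rw [map_add, map_mul, map_mul, map_one,
    Ideal.Quotient.eq_zero_iff_mem.2 (Ideal.mem_span_singleton_self m), mul_zero, add_zero] at h1
  exact IsUnit.of_mul_eq_one_right _ h1

/-- more than `φ(m)` Gaussian integers prime to `m` contain two that are congruent modulo `m` -/
theorem exists_congr_phi {m : GaussianInt} (hm : m ≠ 0) (T : Finset GaussianInt)
    (hT : phi m < T.card) (hcop : ∀ x ∈ T, IsCoprime x m) :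
    ∃ x ∈ T, ∃ y ∈ T, x ≠ y ∧ m ∣ x - y := by
  classical
  have hf := finite_quot hm
  have := Fintype.ofFinite (GaussianInt ⧸ Ideal.span {m})ˣ
  unfold phi at hT
  rw [Nat.card_eq_fintype_card, ← Finset.card_univ] at hT
  obtain ⟨x, hx, y, hy, hxy, hmap⟩ := Finset.exists_ne_map_eq_of_card_lt_of_maps_to
    (f := fun x : GaussianInt => if h : IsUnit (Ideal.Quotient.mk (Ideal.span {m}) x)
      then h.unit else 1) hT (fun _ _ => Finset.mem_coe.2 (Finset.mem_univ _))
  refine ⟨x, hx, y, hy, hxy, ?_⟩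
  simp only [isUnit_mk (hcop x hx), isUnit_mk (hcop y hy), dif_pos] at hmap
  have h1 := congrArg Units.val hmap
  rw [IsUnit.unit_spec, IsUnit.unit_spec] at h1
  exact Ideal.mem_span_singleton.1 (Ideal.Quotient.eq.1 h1)

theorem mem_of_reach_ne {D : ℝ} {S : Set GaussianInt} {x y : GaussianInt}
    (h : (walkGraph D S).Reachable x y) (hne : x ≠ y) : x ∈ S ∧ y ∈ S := by
  obtain ⟨N, a, a0, aN, ha⟩ := exists_chain h
  have hN : 0 < N := by
    rcases Nat.eq_zero_or_pos N with h | h
    · rw [h] at aN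
      exact absurd (a0.symm.trans aN) hne
    · exact h
  exact ⟨a0 ▸ chain_mem hN ha (Nat.zero_le N), aN ▸ chain_mem hN ha (le_refl N)⟩

/-- a cluster with more than `φ(m)` elements is periodic -/
theorem per_of_card {D : ℝ} {m z : GaussianInt} (hm : m ≠ 0)
    (h : ((phi m : ℕ) : ℕ∞) < (cluster D m z).encard) : Per D m z := by
  obtain ⟨T, hT, hc⟩ : ∃ T : Finset GaussianInt, (T : Set GaussianInt) ⊆ cluster D m z ∧
      T.card = phi m + 1 := by
    have h1 : ((phi m + 1 : ℕ) : ℕ∞) ≤ (cluster D m z).encard := by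
      push_cast
      exact Order.add_one_le_of_lt h
    obtain ⟨T, hT, hc⟩ := Set.exists_subset_encard_eq h1
    have hfin : T.Finite := Set.finite_of_encard_eq_coe hc
    refine ⟨hfin.toFinset, by simpa using hT, ?_⟩
    rw [hfin.encard_eq_coe_toFinset_card] at hc
    exact_mod_cast hc
  have hpos := phi_pos hm
  have hz : z ∈ sieved m := by
    obtain ⟨y, hy, hne⟩ := Finset.exists_mem_ne (s := T) (by omega) z
    exact (mem_of_reach_ne (hT hy) hne.symm).1
  have hcop : ∀ x ∈ T, IsCoprime x m := by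
    intro x hx
    by_cases e : z = x
    · rw [← e]
      exact hz
    · exact (mem_of_reach_ne (hT hx) e).2
  obtain ⟨x, hx, y, hy, hxy, hd⟩ := exists_congr_phi hm T (by omega) hcop
  have h1 : (walkGraph D (sieved m)).Reachable z x := hT hx
  have h2 : (walkGraph D (sieved m)).Reachable z y := hT hy
  have h3 : Per D m y := ⟨x - y, sub_ne_zero.2 hxy, hd, by
    rw [add_sub_cancel]
    exact h2.symm.trans h1⟩
  exact h3.of_reach h2.symm

end Vale.Agent.P015.R3.H85
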