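import Vale.Agent.P015.R3.H85.Big

/-!
# P015, one cluster: number of residue classes of the big cluster
-/

namespace Vale.Agent.P015.R3.H85

open GaussianInt

theorem one_le_norm_of_ne {u : GaussianInt} (hu : u ≠ 0) : 1 ≤ ‖toComplex u‖ := by
  have h1 : 0 < u.norm := norm_pos.2 hu
  have h2 : (1 : ℝ) ≤ (u.norm : ℝ) := by exact_mod_cast h1
  rw [intCast_real_norm, Complex.normSq_eq_norm_sq] at h2
  nlinarith [norm_nonneg (toComplex u)]

theorem norm_le_of_dvd {m v : GaussianInt} (hv : v ≠ 0) (h : m ∣ v) :
    ‖toComplex m‖ ≤ ‖toComplex v‖ := by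
  obtain ⟨u, rfl⟩ := h
  rw [map_mul, norm_mul]
  exact le_mul_of_one_le_right (norm_nonneg _) (one_le_norm_of_ne (right_ne_zero_of_mul hv))

theorem dist_chain {D : ℝ} {k : ℕ} {a : ℕ → GaussianInt}
    (ha : ∀ n < k, dist (toComplex (a n)) (toComplex (a (n + 1))) ≤ D) {n : ℕ} (hn : n ≤ k) :
    dist (toComplex (a 0)) (toComplex (a n)) ≤ n * D := by
  induction n with
  | zero => simp
  | succ n ih =>
    have h1 := ih (by omega)
    have h2 := ha n (by omega)
    have h3 := dist_triangle (toComplex (a 0)) (toComplex (a n)) (toComplex (a (n + 1)))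
    push_cast
    linarith

/-- a walk of length `k` in the cluster from a point to a different congruent point -/
def PLen (D : ℝ) (m z : GaussianInt) (k : ℕ) : Prop :=
  ∃ a : ℕ → GaussianInt, a 0 ∈ cluster D m z ∧
    (∀ n < k, (walkGraph D (sieved m)).Adj (a n) (a (n + 1))) ∧ m ∣ a 0 - a k ∧ a k ≠ a 0

theorem exists_classes {D : ℝ} {m z : GaussianInt} (h : Per D m z) :
    ∃ T : Finset GaussianInt, (T : Set GaussianInt) ⊆ cluster D m z ∧
      (∀ x ∈ T, ∀ y ∈ T, m ∣ x - y → x = y) ∧ ‖toComplex m‖ ≤ D * T.card := by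
  classical
  have hex : ∃ k, PLen D m z k := by
    obtain ⟨v, hv0, hv, hr⟩ := h
    obtain ⟨N, a, a0, aN, ha⟩ := exists_chain hr
    refine ⟨N, a, ?_, ha, ?_, ?_⟩
    · rw [a0]
      exact SimpleGraph.Reachable.refl _
    · rw [a0, aN, sub_add_cancel_left]
      exact (dvd_neg).2 hv
    · rw [a0, aN]
      simpa using hv0
  obtain ⟨k, hk⟩ : ∃ k, k = Nat.find hex := ⟨_, rfl⟩
  have hmin : ∀ l < k, ¬ PLen D m z l := fun l hl => Nat.find_min hex (hk ▸ hl)
  obtain ⟨a, h0, ha, hd, hne⟩ : PLen D m z k := hk ▸ Nat.find_spec hex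
  have hmem : ∀ n ≤ k, a n ∈ cluster D m z := fun n hn =>
    SimpleGraph.Reachable.trans h0 (chain_reach ha hn)
  have hinc : ∀ i j, i < j → j < k → ¬ m ∣ a i - a j := by
    intro i j hij hjk hdij
    by_cases e : a j = a i
    · -- remove the loop
      refine hmin (k - (j - i)) (by omega)
        ⟨fun n => if n ≤ i then a n else a (n + (j - i)), ?_, ?_, ?_, ?_⟩
      · simpa using h0
      · intro n hn
        rcases lt_trichotomy n i with h | h | h
        · simp only [h.le, if_true, show n + 1 ≤ i from h]
          exact ha n (by omega)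
        · subst h
          simp only [le_refl, if_true, show ¬ n + 1 ≤ n by omega, if_false]
          rw [← e, show n + 1 + (j - n) = j + 1 by omega]
          exact ha j hjk
        · simp only [show ¬ n ≤ i by omega, show ¬ n + 1 ≤ i by omega, if_false]
          rw [show n + 1 + (j - i) = n + (j - i) + 1 by omega]
          exact ha _ (by omega)
      · simp only [Nat.zero_le, if_true, show ¬ k - (j - i) ≤ i by omega, if_false]
        rwa [show k - (j - i) + (j - i) = k by omega]
      · simp only [Nat.zero_le, if_true, show ¬ k - (j - i) ≤ i by omega, if_false]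
        rwa [show k - (j - i) + (j - i) = k by omega]
    · refine hmin (j - i) (by omega) ⟨fun n => a (i + n), ?_, ?_, ?_, ?_⟩
      · exact hmem i (by omega)
      · intro n hn
        exact ha (i + n) (by omega)
      · simpa [show i + (j - i) = j by omega] using hdij
      · simpa [show i + (j - i) = j by omega] using e
  have hinj : Set.InjOn a (Finset.range k : Set ℕ) := by
    intro i hi j hj hij
    simp only [Finset.coe_range, Set.mem_Iio] at hi hj
    rcases lt_trichotomy i j with h | h | h
    · exact absurd (by rw [hij]; simp) (hinc i j h hj)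
    · exact h
    · exact absurd (by rw [hij]; simp) (hinc j i h hi)
  refine ⟨(Finset.range k).image a, ?_, ?_, ?_⟩
  · intro x hx
    simp only [Finset.coe_image, Finset.coe_range, Set.mem_image, Set.mem_Iio] at hx
    obtain ⟨n, hn, rfl⟩ := hx
    exact hmem n hn.le
  · intro x hx y hy hxy
    simp only [Finset.mem_image, Finset.mem_range] at hx hy
    obtain ⟨i, hi, rfl⟩ := hx
    obtain ⟨j, hj, rfl⟩ := hy
    rcases lt_trichotomy i j with h | h | h
    · exact absurd hxy (hinc i j h hj)
    · rw [h]
    · exact absurd ((dvd_sub_comm).1 hxy) (hinc j i h hi)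
  · rw [Finset.card_image_of_injOn hinj, Finset.card_range]
    have h1 := dist_chain (fun n hn => (ha n hn).2.2.2) (le_refl k)
    have h2 := norm_le_of_dvd (sub_ne_zero.2 hne.symm) hd
    rw [map_sub, ← dist_eq_norm] at h2
    linarith [mul_comm D (k : ℝ)]

end Vale.Agent.P015.R3.H85
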