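import Vale.Agent.P015.Cx.Defs

/-!
# P015, one cluster: the sieved sets and their clusters
-/

namespace Vale.Agent.P015.R3.H85

/-- The graph on all Gaussian integers in which two distinct elements of `S` at Euclidean
distance at most `D` are joined (elements outside `S` are isolated). -/
def walkGraph (D : ℝ) (S : Set GaussianInt) : SimpleGraph GaussianInt where
  Adj z w := z ≠ w ∧ z ∈ S ∧ w ∈ S ∧
    dist (GaussianInt.toComplex z) (GaussianInt.toComplex w) ≤ D
  symm := ⟨fun z w h => ⟨h.1.symm, h.2.2.1, h.2.1, by rw [dist_comm]; exact h.2.2.2⟩⟩
  loopless := ⟨fun z h => h.1 rfl⟩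

/-- The Gaussian integers that are prime to `m`. -/
def sieved (m : GaussianInt) : Set GaussianInt := {z | IsCoprime z m}

/-- The `D`-cluster of `z` in the set of Gaussian integers prime to `m`: all `w` that can be
reached from `z` by a finite walk inside this set with steps of length at most `D`. -/
def cluster (D : ℝ) (m z : GaussianInt) : Set GaussianInt :=
  {w | (walkGraph D (sieved m)).Reachable z w}

/-- Euler's function of the Gaussian integers: the number of invertible residue classes
modulo `m`. -/
noncomputable def phi (m : GaussianInt) : ℕ := Nat.card (GaussianInt ⧸ Ideal.span {m})ˣ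

/-- An infinite sequence of distinct Gaussian integers with steps of length at most `D` that misses
a residue class modulo every Gaussian prime. -/
def Admissible (D : ℝ) (g : ℕ → GaussianInt) : Prop :=
  Function.Injective g ∧
    (∀ n, dist (GaussianInt.toComplex (g n)) (GaussianInt.toComplex (g (n + 1))) ≤ D) ∧
    ∀ π : GaussianInt, Prime π → ∃ a : GaussianInt, ∀ n, ¬ π ∣ g n - a

end Vale.Agent.P015.R3.H85
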