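import Vale.Agent.P015.R3.H85.Classes

/-!
# P015, one cluster: the dichotomy
-/

open Filter

namespace Vale.Agent.P015.R3.H85

open GaussianInt

theorem finite_ball (R : ℝ) : {z : GaussianInt | ‖toComplex z‖ ≤ R}.Finite := by
  refine Set.Finite.subset (((Set.finite_Icc (-⌈R⌉) ⌈R⌉).prod
    (Set.finite_Icc (-⌈R⌉) ⌈R⌉)).image (fun p : ℤ × ℤ => (⟨p.1, p.2⟩ : GaussianInt))) ?_
  intro z hz
  have hz' : ‖toComplex z‖ ≤ R := hz
  have h1 : |((z.re : ℤ) : ℝ)| ≤ R := by
    rw [intCast_re]
    exact (Complex.abs_re_le_norm _).trans hz'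
  have h2 : |((z.im : ℤ) : ℝ)| ≤ R := by
    rw [intCast_im]
    exact (Complex.abs_im_le_norm _).trans hz'
  have h3 := abs_le.1 (h1.trans (Int.le_ceil R))
  have h4 := abs_le.1 (h2.trans (Int.le_ceil R))
  refine ⟨(z.re, z.im), ?_, rfl⟩
  simp only [Set.mem_prod, Set.mem_Icc]
  refine ⟨⟨?_, ?_⟩, ⟨?_, ?_⟩⟩
  · exact_mod_cast h3.1
  · exact_mod_cast h3.2
  · exact_mod_cast h4.1
  · exact_mod_cast h4.2

theorem norm_eq_sq (z : GaussianInt) : (z.norm : ℝ) = ‖toComplex z‖ ^ 2 := by
  rw [intCast_real_norm, Complex.normSq_eq_norm_sq]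

theorem finite_norm_le (n : ℤ) : {z : GaussianInt | z.norm ≤ n}.Finite := by
  refine (finite_ball (Real.sqrt n)).subset ?_
  intro z hz
  have h : z.norm ≤ n := hz
  have h1 : ((z.norm : ℤ) : ℝ) ≤ n := by exact_mod_cast h
  rw [norm_eq_sq] at h1
  exact Real.le_sqrt_of_sq_le h1

/-- an infinite cluster contains injective walks of every length -/
theorem exists_long {D : ℝ} {m z : GaussianInt} (h : (cluster D m z).Infinite) (y : ℕ) :
    ∃ a : ℕ → GaussianInt, (∀ i ≤ y, ∀ j ≤ y, a i = a j → i = j) ∧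
      (∀ i < y, dist (toComplex (a i)) (toComplex (a (i + 1))) ≤ D) ∧
      (∀ i ≤ y, IsCoprime (a i) m) ∧
      ∀ i j, i + 1 < j → j ≤ y → D < dist (toComplex (a i)) (toComplex (a j)) := by
  obtain ⟨w, hw, hwd⟩ : ∃ w ∈ cluster D m z, (y + 1 : ℝ) * max D 0 + ‖toComplex z‖ <
      ‖toComplex w‖ := by
    by_contra hcon
    push Not at hcon
    exact h ((finite_ball _).subset hcon)
  obtain ⟨p, hpd⟩ : ∃ p : (walkGraph D (sieved m)).Walk z w,
      p.length = (walkGraph D (sieved m)).dist z w :=
    SimpleGraph.Reachable.exists_walk_length_eq_dist hw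
  have hp : p.IsPath := p.isPath_of_length_eq_dist hpd
  have hadj : ∀ n < p.length, (walkGraph D (sieved m)).Adj (p.getVert n) (p.getVert (n + 1)) :=
    fun n hn => p.adj_getVert_succ hn
  have hlen : y < p.length := by
    by_contra hcon
    push Not at hcon
    have h1 := dist_chain (D := max D 0) (fun n hn => (hadj n hn).2.2.2.trans (le_max_left _ _))
      (le_refl p.length)
    rw [p.getVert_zero, p.getVert_length] at h1
    have h2 : ‖toComplex w‖ ≤ ‖toComplex z‖ + dist (toComplex z) (toComplex w) := by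
      rw [dist_comm, dist_eq_norm]
      have := norm_add_le (toComplex z) (toComplex w - toComplex z)
      rwa [add_sub_cancel] at this
    have h3 : (p.length : ℝ) * max D 0 ≤ (y + 1 : ℝ) * max D 0 := by
      apply mul_le_mul_of_nonneg_right _ (le_max_right _ _)
      have : (p.length : ℝ) ≤ y := by exact_mod_cast hcon
      linarith
    linarith
  refine ⟨p.getVert, ?_, ?_, ?_, ?_⟩
  · intro i hi j hj hij
    exact hp.getVert_injOn (by simp only [Set.mem_ofPred_eq]; omega)
      (by simp only [Set.mem_ofPred_eq]; omega) hij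
  · intro i hi
    exact (hadj i (by omega)).2.2.2
  · intro i hi
    exact chain_mem (by omega) hadj (by omega)
  · intro i j hij hj
    by_contra hcon
    push Not at hcon
    have hne : p.getVert i ≠ p.getVert j := fun e => by
      have := hp.getVert_injOn (by simp only [Set.mem_ofPred_eq]; omega)
        (by simp only [Set.mem_ofPred_eq]; omega) e
      omega
    have hA : (walkGraph D (sieved m)).Adj (p.getVert i) (p.getVert j) :=
      ⟨hne, chain_mem (by omega) hadj (by omega), chain_mem (by omega) hadj (by omega), hcon⟩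
    have h1 := SimpleGraph.dist_le ((p.take i).append (SimpleGraph.Walk.cons hA (p.drop j)))
    rw [SimpleGraph.Walk.length_append, SimpleGraph.Walk.length_cons,
      SimpleGraph.Walk.take_length, SimpleGraph.Walk.drop_length, ← hpd] at h1
    omega

theorem dvd_natCast_norm (π : GaussianInt) : π ∣ ((π.norm.natAbs : ℕ) : GaussianInt) := by
  have h1 : (0 : ℤ) ≤ π.norm := norm_nonneg π
  have h2 : ((π.norm.natAbs : ℕ) : GaussianInt) = ((π.norm : ℤ) : GaussianInt) := by
    rw [← Int.cast_natCast, Int.natAbs_of_nonneg h1]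
  rw [h2, Zsqrtd.norm_eq_mul_conj]
  exact dvd_mul_right _ _

/-- compactness: if the sieved sets of all moduli have infinite clusters, then there is an
admissible sequence -/
theorem exists_admissible {D : ℝ}
    (h : ∀ m : GaussianInt, m ≠ 0 → ∃ z, (cluster D m z).Infinite) :
    ∃ g, Admissible D g ∧
      ∀ i j, i + 1 < j → D < dist (toComplex (g i)) (toComplex (g j)) := by
  have hA : ∀ y : ℕ, ∃ a : ℕ → GaussianInt, (∀ i ≤ y, ∀ j ≤ y, a i = a j → i = j) ∧
      (∀ i < y, dist (toComplex (a i)) (toComplex (a (i + 1))) ≤ D) ∧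
      (∀ i ≤ y, IsCoprime (a i) ((y.factorial : ℕ) : GaussianInt)) ∧
      ∀ i j, i + 1 < j → j ≤ y → D < dist (toComplex (a i)) (toComplex (a j)) := by
    intro y
    obtain ⟨z, hz⟩ := h ((y.factorial : ℕ) : GaussianInt)
      (by exact_mod_cast y.factorial_ne_zero)
    exact exists_long hz y
  choose a ainj astep acop aind using hA
  have hge : ∀ n : ℕ, ∀ᶠ y in (hyperfilter ℕ : Filter ℕ), n ≤ y := fun n =>
    Nat.hyperfilter_le_atTop (eventually_ge_atTop n)
  have hlim : ∀ i : ℕ, ∃ t : GaussianInt, ∀ᶠ y in (hyperfilter ℕ : Filter ℕ),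
      a y i - a y 0 = t := by
    intro i
    have h1 : ∀ᶠ y in (hyperfilter ℕ : Filter ℕ),
        ∃ t ∈ {z : GaussianInt | ‖toComplex z‖ ≤ i * D}, a y i - a y 0 = t := by
      filter_upwards [hge i] with y hy
      refine ⟨_, ?_, rfl⟩
      rw [map_sub, ← dist_eq_norm, dist_comm]
      exact dist_chain (astep y) hy
    obtain ⟨t, -, ht⟩ := (Ultrafilter.eventually_exists_mem_iff (finite_ball _)).1 h1
    exact ⟨t, ht⟩
  choose g hg using hlim
  refine ⟨g, ⟨?_, ?_, ?_⟩, ?_⟩
  · intro i j hij
    obtain ⟨y, h1, h2, h3, h4⟩ := ((hg i).and ((hg j).and ((hge i).and (hge j)))).exists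
    apply ainj y i h3 j h4
    rw [← sub_left_inj (a := a y 0), h1, h2, hij]
  · intro n
    obtain ⟨y, h1, h2, h3⟩ := ((hg n).and ((hg (n + 1)).and (hge (n + 1)))).exists
    have h4 := astep y n (by omega)
    rw [← h1, ← h2, map_sub, map_sub, dist_sub_right]
    exact h4
  · intro π hπ
    have h1 : ∀ᶠ y in (hyperfilter ℕ : Filter ℕ),
        ∃ t ∈ {z : GaussianInt | z.norm ≤ π.norm}, π ∣ (-a y 0) - t := by
      refine Eventually.of_forall fun y => ⟨(-a y 0) % π, ?_, ?_⟩
      · exact (norm_mod_lt _ hπ.ne_zero).le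
      · refine ⟨(-a y 0) / π, ?_⟩
        exact sub_eq_iff_eq_add.2 (EuclideanDomain.div_add_mod _ _).symm
    obtain ⟨t, -, ht⟩ := (Ultrafilter.eventually_exists_mem_iff (finite_norm_le _)).1 h1
    refine ⟨t, fun n hn => ?_⟩
    obtain ⟨y, h2, h3, h4, h5⟩ :=
      (ht.and ((hg n).and ((hge n).and (hge π.norm.natAbs)))).exists
    have h6 : π ∣ a y n := by
      have : a y n = (g n - t) - ((-a y 0) - t) := by
        rw [← h3]
        ring
      rw [this]
      exact dvd_sub hn h2
    have h7 : π ∣ ((y.factorial : ℕ) : GaussianInt) := by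
      refine (dvd_natCast_norm π).trans ?_
      have h8 : π.norm.natAbs ∣ y.factorial := by
        refine Nat.dvd_factorial ?_ h5
        have := norm_pos.2 hπ.ne_zero
        omega
      exact_mod_cast Nat.cast_dvd_cast (α := GaussianInt) h8
    exact hπ.not_isUnit ((acop y n h4).isUnit_of_dvd' h6 h7)
  · intro i j hij
    obtain ⟨y, h1, h2, h3⟩ := ((hg i).and ((hg j).and (hge j))).exists
    have h4 := aind y i j hij h3
    rw [← h1, ← h2, map_sub, map_sub, dist_sub_right]
    exact h4

/-- CRT: a set that misses a residue class modulo every Gaussian prime can be moved into every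
sieved set -/
theorem exists_translate {X : Set GaussianInt}
    (h : ∀ π : GaussianInt, Prime π → ∃ a : GaussianInt, ∀ x ∈ X, ¬ π ∣ x - a)
    (m : GaussianInt) (hm : m ≠ 0) : ∃ c, ∀ x ∈ X, IsCoprime (x + c) m := by
  induction m using UniqueFactorizationMonoid.induction_on_prime with
  | h₁ => exact absurd rfl hm
  | h₂ x hx =>
    exact ⟨0, fun n _ => isCoprime_one_right.of_isCoprime_of_dvd_right (isUnit_iff_dvd_one.1 hx)⟩
  | h₃ m' π hm' hπ ih =>
    obtain ⟨c', hc'⟩ := ih hm'
    by_cases hdvd : π ∣ m'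
    · exact ⟨c', fun x hx =>
        IsCoprime.mul_right ((hc' x hx).of_isCoprime_of_dvd_right hdvd) (hc' x hx)⟩
    · obtain ⟨a, ha⟩ := h π hπ
      obtain ⟨u, s, hus⟩ := (hπ.irreducible.coprime_iff_not_dvd).2 hdvd
      refine ⟨c' + m' * (s * (-a - c')), fun x hx => IsCoprime.mul_right ?_ ?_⟩
      · refine ((hπ.irreducible.coprime_iff_not_dvd).2 fun hd => ha x hx ?_).symm
        have e : x - a = (x + (c' + m' * (s * (-a - c')))) + π * (u * (-a - c')) := by
          linear_combination (-a - c') * (-hus)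
        rw [e]
        exact dvd_add hd (dvd_mul_right _ _)
      · rw [← add_assoc]
        exact IsCoprime.add_mul_left_left_iff.2 (hc' x hx)

theorem infinite_of_seq {D : ℝ} {m : GaussianInt} {f : ℕ → GaussianInt}
    (hinj : Function.Injective f)
    (hstep : ∀ n, dist (toComplex (f n)) (toComplex (f (n + 1))) ≤ D)
    (hcop : ∀ n, IsCoprime (f n) m) : (cluster D m (f 0)).Infinite := by
  refine Set.infinite_of_injective_forall_mem hinj fun n => ?_
  have h := chain_reach (D := D) (S := sieved m) (N := n) (a := f)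
    (fun k _ => ⟨fun e => by have := hinj e; omega, hcop k, hcop (k + 1), hstep k⟩) (le_refl n)
  exact h

/-- a finite walk that misses a residue class modulo every Gaussian prime gives a cluster -/
theorem le_encard_of_walk {D : ℝ} {m : GaussianInt} (hm : m ≠ 0) {k : ℕ} {f : ℕ → GaussianInt}
    (hinj : ∀ i ≤ k, ∀ j ≤ k, f i = f j → i = j)
    (hstep : ∀ n < k, dist (toComplex (f n)) (toComplex (f (n + 1))) ≤ D)
    (hmiss : ∀ π : GaussianInt, Prime π → ∃ a : GaussianInt, ∀ n ≤ k, ¬ π ∣ f n - a) :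
    ∃ z, ((k + 1 : ℕ) : ℕ∞) ≤ (cluster D m z).encard := by
  classical
  obtain ⟨c, hc⟩ := exists_translate (X := f '' Set.Iic k) (by
    intro π hπ
    obtain ⟨a, ha⟩ := hmiss π hπ
    refine ⟨a, ?_⟩
    rintro _ ⟨n, hn, rfl⟩
    exact ha n hn) m hm
  have hc' : ∀ n ≤ k, IsCoprime (f n + c) m := fun n hn => hc _ ⟨n, hn, rfl⟩
  refine ⟨f 0 + c, ?_⟩
  have hadj : ∀ n < k, (walkGraph D (sieved m)).Adj (f n + c) (f (n + 1) + c) := by
    intro n hn
    refine ⟨fun e => ?_, hc' n hn.le, hc' (n + 1) hn, ?_⟩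
    · have := hinj n hn.le (n + 1) hn (add_right_cancel e)
      omega
    · simp only [map_add, dist_add_right]
      exact hstep n hn
  have hsub : (((Finset.range (k + 1)).image fun n => f n + c : Finset GaussianInt) :
      Set GaussianInt) ⊆ cluster D m (f 0 + c) := by
    intro x hx
    rw [Finset.coe_image] at hx
    obtain ⟨n, hn, rfl⟩ := hx
    rw [Finset.coe_range, Set.mem_Iio] at hn
    exact chain_reach (a := fun n => f n + c) hadj (show n ≤ k by omega)
  refine le_trans ?_ (Set.encard_le_encard hsub)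
  rw [Set.encard_coe_eq_coe_finsetCard, Finset.card_image_of_injOn, Finset.card_range]
  intro i hi j hj hij
  rw [Finset.coe_range, Set.mem_Iio] at hi hj
  exact hinj i (by omega) j (by omega) (add_right_cancel hij)

end Vale.Agent.P015.R3.H85
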