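import Vale.Agent.P015.R3.H85.Paths
import Mathlib.NumberTheory.Primorial

/-!
# P015, one cluster: the parts of the theorem
-/

namespace Vale.Agent.P015.R3.H85

open GaussianInt

theorem one_cluster {D : ℝ} {m : GaussianInt} (hm : m ≠ 0) {z w : GaussianInt}
    (hz : ((phi m : ℕ) : ℕ∞) < (cluster D m z).encard)
    (hw : ((phi m : ℕ) : ℕ∞) < (cluster D m w).encard) :
    cluster D m w = cluster D m z := by
  have h := (per_of_card hm hz).reach (per_of_card hm hw)
  ext x
  exact ⟨fun hx => h.trans hx, fun hx => h.symm.trans hx⟩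

theorem structure_of_big {D : ℝ} {m : GaussianInt} (hm : m ≠ 0) {z : GaussianInt}
    (hz : ((phi m : ℕ) : ℕ∞) < (cluster D m z).encard) :
    (cluster D m z).Infinite ∧
      (∀ x ∈ cluster D m z, (⟨0, 1⟩ : GaussianInt) * x ∈ cluster D m z ∧
        ∀ u : GaussianInt, x + m * u ∈ cluster D m z) ∧
      ∃ T : Finset GaussianInt, (T : Set GaussianInt) ⊆ cluster D m z ∧
        (∀ x ∈ T, ∀ y ∈ T, m ∣ x - y → x = y) ∧ ‖toComplex m‖ ≤ D * T.card := by
  have hp := per_of_card hm hz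
  refine ⟨hp.infinite, fun x hx => ?_, exists_classes hp⟩
  have hx' := hp.of_reach hx
  exact ⟨SimpleGraph.Reachable.trans hx hx'.reach_rot,
    fun u => SimpleGraph.Reachable.trans hx (hx'.reach (hx'.add u))⟩

/-- if all clusters of one sieved set are small, walks with `φ(m) + 1` points cover all classes
modulo some Gaussian prime -/
theorem walks_of_small {D : ℝ} {m : GaussianInt} (hm : m ≠ 0)
    (h : ∀ z, (cluster D m z).encard ≤ ((phi m : ℕ) : ℕ∞)) (f : ℕ → GaussianInt)
    (hinj : ∀ i ≤ phi m, ∀ j ≤ phi m, f i = f j → i = j)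
    (hstep : ∀ n < phi m, dist (toComplex (f n)) (toComplex (f (n + 1))) ≤ D) :
    ∃ π : GaussianInt, Prime π ∧ ∀ a, ∃ n ≤ phi m, π ∣ f n - a := by
  by_contra hcon
  push Not at hcon
  obtain ⟨z, hz⟩ := le_encard_of_walk hm hinj hstep hcon
  have h1 := hz.trans (h z)
  have h2 : phi m + 1 ≤ phi m := by exact_mod_cast h1
  omega

/-- the dichotomy, as an equivalence of four statements -/
theorem dichotomy (D : ℝ) :
    List.TFAE [
      ∃ m : GaussianInt, m ≠ 0 ∧ ∀ z, (cluster D m z).encard ≤ ((phi m : ℕ) : ℕ∞),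
      ∃ k : ℕ, ∀ f : ℕ → GaussianInt, (∀ i ≤ k, ∀ j ≤ k, f i = f j → i = j) →
        (∀ n < k, dist (toComplex (f n)) (toComplex (f (n + 1))) ≤ D) →
          ∃ π : GaussianInt, Prime π ∧ ∀ a, ∃ n ≤ k, π ∣ f n - a,
      ¬ ∃ g : ℕ → GaussianInt, Admissible D g,
      ¬ ∃ g : ℕ → GaussianInt, Admissible D g ∧
        ∀ i j, i + 1 < j → D < dist (toComplex (g i)) (toComplex (g j))] := by
  tfae_have 1 → 2 := by
    rintro ⟨m, hm, h⟩
    exact ⟨phi m, walks_of_small hm h⟩
  tfae_have 2 → 3 := by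
    rintro ⟨k, hk⟩ ⟨g, hg⟩
    obtain ⟨π, hπ, h⟩ := hk g (fun i _ j _ e => hg.1 e) (fun n _ => hg.2.1 n)
    obtain ⟨a, ha⟩ := hg.2.2 π hπ
    obtain ⟨n, -, hn⟩ := h a
    exact ha n hn
  tfae_have 3 → 4 := fun h ⟨g, hg⟩ => h ⟨g, hg.1⟩
  tfae_have 4 → 1 := by
    intro h
    by_contra hcon
    push Not at hcon
    refine h (exists_admissible fun m hm => ?_)
    obtain ⟨z, hz⟩ := hcon m hm
    exact ⟨z, (per_of_card hm hz).infinite⟩
  tfae_finish

/-- The Gaussian integers that are prime to all rational primes up to `y`: two clusters with more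
than `16 ^ y` elements coincide. -/
theorem one_cluster_primorial {D : ℝ} (y : ℕ) {z w : GaussianInt}
    (hz : ((16 ^ y : ℕ) : ℕ∞) < (cluster D (primorial y : ℕ) z).encard)
    (hw : ((16 ^ y : ℕ) : ℕ∞) < (cluster D (primorial y : ℕ) w).encard) :
    cluster D (primorial y : ℕ) w = cluster D (primorial y : ℕ) z := by
  have h0 : ((primorial y : ℕ) : GaussianInt) ≠ 0 := by
    exact_mod_cast (primorial_pos y).ne'
  have h1 : (((primorial y : ℕ) : GaussianInt).norm.natAbs : ℕ) ≤ 16 ^ y := by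
    have h2 : ((primorial y : ℕ) : GaussianInt).norm = ((primorial y * primorial y : ℕ) : ℤ) := by
      rw [Zsqrtd.norm_def]
      simp
    rw [h2, Int.natAbs_natCast]
    calc primorial y * primorial y ≤ 4 ^ y * 4 ^ y :=
          Nat.mul_le_mul (primorial_le_four_pow y) (primorial_le_four_pow y)
      _ = 16 ^ y := by
          rw [← mul_pow]
          norm_num
  have h3 : ((phi ((primorial y : ℕ) : GaussianInt) : ℕ) : ℕ∞) ≤ ((16 ^ y : ℕ) : ℕ∞) := by
    exact_mod_cast (phi_le_norm h0).trans h1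
  exact one_cluster h0 (h3.trans_lt hz) (h3.trans_lt hw)

end Vale.Agent.P015.R3.H85
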