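import Vale.Agent.P015.R3.H85.Rot

/-!
# P015, one cluster: components that are not invariant under rotation lie in a quarter-plane
-/

namespace Vale.Agent.P015.R3.H85

open GaussianInt

/-- crossing a mirror line -/
theorem exists_near_mirror {D : ℝ} {S : Set GaussianInt} (c : ℂ) (hc : ‖c‖ = 1)
    {x y : GaussianInt} (h : (walkGraph D S).Reachable x y) (hxy : x ≠ y ∨ x ∈ S)
    (hx : (c * toComplex x).re ≤ 0) (hy : 0 ≤ (c * toComplex y).re) :
    ∃ z, (walkGraph D S).Reachable x z ∧ z ∈ S ∧
      (2 * |(c * toComplex z).re| ≤ D ∨ (c * toComplex z).re = 0) := by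
  have hxS : x ∈ S := by
    rcases hxy with h1 | h1
    · exact (mem_of_reach_ne h h1).1
    · exact h1
  clear hxy
  obtain ⟨p⟩ := h
  induction p with
  | nil => exact ⟨_, SimpleGraph.Reachable.refl _, hxS, Or.inr (le_antisymm hx hy)⟩
  | @cons u v w huv p ih =>
    rcases le_or_gt (c * toComplex v).re 0 with hv | hv
    · obtain ⟨z, h1, h2, h3⟩ := ih hv hy huv.2.2.1
      exact ⟨z, huv.reachable.trans h1, h2, h3⟩
    · have h1 : (c * toComplex v).re - (c * toComplex u).re ≤ D := by
        have h2 : (c * toComplex v).re - (c * toComplex u).re =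
            (c * (toComplex v - toComplex u)).re := by
          rw [mul_sub, Complex.sub_re]
        rw [h2]
        refine (Complex.re_le_norm _).trans ?_
        rw [norm_mul, hc, one_mul, ← dist_eq_norm, dist_comm]
        exact huv.2.2.2
      rcases le_total (-(c * toComplex u).re) (c * toComplex v).re with h3 | h3
      · refine ⟨u, SimpleGraph.Reachable.refl _, huv.2.1, Or.inl ?_⟩
        rw [abs_of_nonpos hx]
        linarith
      · refine ⟨v, huv.reachable, huv.2.2.1, Or.inl ?_⟩
        rw [abs_of_pos hv]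
        linarith

/-- the reflections `z ↦ i ^ k * conj z` -/
def refl (k : ℕ) (z : GaussianInt) : GaussianInt := iu ^ k * star z

theorem refl_inj (k : ℕ) : Function.Injective (refl k) :=
  (iu_inj k).comp star_injective

theorem refl_dist (k : ℕ) (z w : GaussianInt) :
    dist (toComplex (refl k z)) (toComplex (refl k w)) = dist (toComplex z) (toComplex w) := by
  rw [refl, refl, dist_iu_pow, toComplex_star, toComplex_star, dist_eq_norm, dist_eq_norm,
    ← map_sub, RCLike.norm_conj]

theorem reach_refl {D : ℝ} {S : Set GaussianInt} (hI : ∀ z ∈ S, iu * z ∈ S)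
    (hC : ∀ z ∈ S, star z ∈ S) (k : ℕ) {x y : GaussianInt} (h : (walkGraph D S).Reachable x y) :
    (walkGraph D S).Reachable (refl k x) (refl k y) :=
  reach_map (T := S) (refl k) (refl_inj k) (fun z hz => mem_iu_pow hI k _ (hC z hz))
    (refl_dist k) h

/-- a component is on one side of a mirror line or invariant under the reflection -/
theorem side_or_refl {D : ℝ} {S : Set GaussianInt} (hI : ∀ z ∈ S, iu * z ∈ S)
    (hC : ∀ z ∈ S, star z ∈ S) (k : ℕ) (c : ℂ) (hc : ‖c‖ = 1)
    (hr : ∀ z : GaussianInt, toComplex (refl k z) =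
      toComplex z - 2 * ((c * toComplex z).re : ℂ) * (starRingEnd ℂ) c)
    {x : GaussianInt} (hx : x ∈ S) :
    (walkGraph D S).Reachable x (refl k x) ∨
      (∀ y, (walkGraph D S).Reachable x y → 0 < (c * toComplex y).re) ∨
      ∀ y, (walkGraph D S).Reachable x y → (c * toComplex y).re < 0 := by
  by_contra hcon
  push Not at hcon
  obtain ⟨hno, ⟨a, ha, ha0⟩, b, hb, hb0⟩ := hcon
  have hmem : ∀ {y}, (walkGraph D S).Reachable x y → y ∈ S := by
    intro y hy
    by_cases e : x = y
    · exact e ▸ hx
    · exact (mem_of_reach_ne hy e).2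
  obtain ⟨z, h1, h2, h3⟩ := exists_near_mirror c hc (ha.symm.trans hb) (Or.inr (hmem ha)) ha0 hb0
  have hxz := ha.trans h1
  apply hno
  have hzr : (walkGraph D S).Reachable z (refl k z) := by
    by_cases e : z = refl k z
    · rw [← e]
    · refine SimpleGraph.Adj.reachable ⟨e, h2, mem_iu_pow hI k _ (hC z h2), ?_⟩
      rcases h3 with h3 | h3
      · rw [hr, dist_eq_norm, sub_sub_cancel, norm_mul, RCLike.norm_conj, hc, mul_one, norm_mul,
          Complex.norm_real, Real.norm_eq_abs]
        simpa using h3
      · exact absurd (toComplex_injective (by rw [hr, h3]; simp)) e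
  exact hxz.trans (hzr.trans (reach_refl hI hC k hxz.symm))

end Vale.Agent.P015.R3.H85
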