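import Vale.Agent.P015.R3.H85.Limit

/-!
# P015, one cluster: the graph of Gaussian primes
-/

namespace Vale.Agent.P015.R3.H85

open GaussianInt

theorem norm_le_norm_of_dvd {m π : GaussianInt} (hm : m ≠ 0) (h : π ∣ m) : π.norm ≤ m.norm := by
  obtain ⟨u, rfl⟩ := h
  have h1 : 0 < u.norm := norm_pos.2 (right_ne_zero_of_mul hm)
  have h2 : 0 ≤ π.norm := norm_nonneg π
  rw [Zsqrtd.norm_mul]
  nlinarith

theorem mem_sieved_of_prime {m π : GaussianInt} (hπ : Prime π) (h : ¬ π ∣ m) : π ∈ sieved m :=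
  (hπ.irreducible.coprime_iff_not_dvd).2 h

/-- an infinite path of `G_D` is eventually in the sieved set -/
theorem eventually_sieved {D : ℝ} {γ : ℕ → {z : GaussianInt // Prime z}}
    (h : IsInfinitePath D γ) {m : GaussianInt} (hm : m ≠ 0) :
    ∃ n₀, ∀ n, n₀ ≤ n → (γ n).1 ∈ sieved m := by
  have hinj : Function.Injective (fun n => (γ n).1) := fun i j hij => h.1 (Subtype.ext hij)
  have hfin : {n : ℕ | (γ n).1.norm ≤ m.norm}.Finite :=
    Set.Finite.preimage (s := {z : GaussianInt | z.norm ≤ m.norm}) (f := fun n => (γ n).1)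
      hinj.injOn (finite_norm_le m.norm)
  obtain ⟨n₀, hn₀⟩ := hfin.bddAbove
  refine ⟨n₀ + 1, fun n hn => mem_sieved_of_prime (γ n).2 fun hd => ?_⟩
  have := hn₀ (norm_le_norm_of_dvd hm hd)
  omega

theorem path_cluster {D : ℝ} {γ : ℕ → {z : GaussianInt // Prime z}}
    (h : IsInfinitePath D γ) {m : GaussianInt} (hm : m ≠ 0) :
    ∃ n₀, ∀ n, n₀ ≤ n → (cluster D m (γ n).1).Infinite := by
  obtain ⟨n₀, hn₀⟩ := eventually_sieved h hm
  refine ⟨n₀, fun n hn => ?_⟩
  refine infinite_of_seq (f := fun k => (γ (n + k)).1) ?_ ?_ ?_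
  · intro i j hij
    have := h.1 (Subtype.ext hij)
    omega
  · intro k
    exact (h.2 (n + k)).2
  · intro k
    exact hn₀ _ (by omega)

theorem lt_encard_of_infinite {s : Set GaussianInt} (h : s.Infinite) (n : ℕ) :
    (n : ℕ∞) < s.encard := by
  rw [h.encard_eq]
  exact ENat.natCast_lt_top n

/-- two infinite paths of `G_D` end in the same cluster -/
theorem paths_join {D : ℝ} {γ γ' : ℕ → {z : GaussianInt // Prime z}}
    (h : IsInfinitePath D γ) (h' : IsInfinitePath D γ') {m : GaussianInt} (hm : m ≠ 0) :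
    ∃ n₀, ∀ k, n₀ ≤ k → ∀ l, n₀ ≤ l →
      ((phi m : ℕ) : ℕ∞) < (cluster D m (γ k).1).encard ∧
      (γ' l).1 ∈ cluster D m (γ k).1 ∧ (⟨0, 1⟩ : GaussianInt) * (γ' l).1 ∈ cluster D m (γ k).1 := by
  obtain ⟨n₁, h₁⟩ := path_cluster h hm
  obtain ⟨n₂, h₂⟩ := path_cluster h' hm
  refine ⟨max n₁ n₂, fun k hk l hl => ?_⟩
  have hk' := h₁ k ((le_max_left _ _).trans hk)
  have hl' := h₂ l ((le_max_right _ _).trans hl)
  have p1 := per_of_card hm (lt_encard_of_infinite hk' _)
  have p2 := per_of_card hm (lt_encard_of_infinite hl' _)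
  exact ⟨lt_encard_of_infinite hk' _, p1.reach p2, (p1.reach p2).trans p2.reach_rot⟩

/-- if all clusters of one sieved set are small, the components of `G_D` have bounded size -/
theorem bounded_components {D : ℝ} {m : GaussianInt} (hm : m ≠ 0)
    (h : ∀ z, (cluster D m z).encard ≤ ((phi m : ℕ) : ℕ∞)) :
    ∃ B : ℕ, ∀ z : {z : GaussianInt // Prime z},
      {w | (moatGraph D).Reachable z w}.encard ≤ (B : ℕ∞) := by
  have hfin : ∀ z, (cluster D m z).Finite := fun z =>
    Set.finite_of_encard_le_coe (h z)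
  obtain ⟨Q, hQ⟩ : ∃ Q : Set GaussianInt, Q = {x | x.norm ≤ m.norm} := ⟨_, rfl⟩
  have hQfin : Q.Finite := hQ ▸ finite_norm_le _
  obtain ⟨U, hU⟩ : ∃ U : Set GaussianInt,
      U = ⋃ q ∈ Q, {u | dist (toComplex q) (toComplex u) ≤ D} := ⟨_, rfl⟩
  have hUfin : U.Finite := by
    rw [hU]
    refine hQfin.biUnion fun q _ => ?_
    refine (finite_ball (‖toComplex q‖ + D)).subset ?_
    intro u hu
    have hu' : dist (toComplex q) (toComplex u) ≤ D := hu
    rw [dist_comm, dist_eq_norm] at hu'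
    have := norm_add_le (toComplex q) (toComplex u - toComplex q)
    rw [add_sub_cancel] at this
    exact this.trans (by linarith)
  obtain ⟨F, hF⟩ : ∃ F : Set GaussianInt, F = Q ∪ ⋃ u ∈ U, cluster D m u := ⟨_, rfl⟩
  have hFfin : F.Finite := hF ▸ hQfin.union (hUfin.biUnion fun u _ => hfin u)
  refine ⟨phi m + F.ncard, fun z => ?_⟩
  have hsub : ∀ w, (moatGraph D).Reachable z w → w.1 ∈ cluster D m z.1 ∪ F := by
    intro w hw
    have hw' := (SimpleGraph.reachable_iff_reflTransGen z w).1 hw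
    clear hw
    induction hw' with
    | refl => exact Or.inl (SimpleGraph.Reachable.refl _)
    | @tail b c hb hbc ih =>
      by_cases hc : c.1 ∣ m
      · right
        rw [hF, hQ]
        exact Or.inl (norm_le_norm_of_dvd hm hc)
      have hcs := mem_sieved_of_prime c.2 hc
      by_cases hbQ : b.1 ∈ Q
      · right
        rw [hF]
        refine Or.inr (Set.mem_biUnion (x := c.1) ?_ (SimpleGraph.Reachable.refl _))
        rw [hU]
        exact Set.mem_biUnion hbQ hbc.2
      have hbm : ¬ b.1 ∣ m := fun hd => hbQ (hQ ▸ norm_le_norm_of_dvd hm hd)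
      have hbs := mem_sieved_of_prime b.2 hbm
      have hadj : (walkGraph D (sieved m)).Adj b.1 c.1 :=
        ⟨fun e => hbc.1 (Subtype.ext e), hbs, hcs, hbc.2⟩
      rcases ih with h1 | h1
      · exact Or.inl (SimpleGraph.Reachable.trans h1 hadj.reachable)
      · right
        rw [hF] at h1 ⊢
        rcases h1 with h1 | h1
        · exact absurd h1 hbQ
        · obtain ⟨u, hu, hbu⟩ := Set.mem_iUnion₂.1 h1
          exact Or.inr (Set.mem_biUnion hu (SimpleGraph.Reachable.trans hbu hadj.reachable))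
  calc {w | (moatGraph D).Reachable z w}.encard
      = (Subtype.val '' {w | (moatGraph D).Reachable z w}).encard :=
        (Subtype.val_injective.encard_image _).symm
    _ ≤ (cluster D m z.1 ∪ F).encard := by
        refine Set.encard_le_encard ?_
        rintro _ ⟨w, hw, rfl⟩
        exact hsub w hw
    _ ≤ (cluster D m z.1).encard + F.encard := Set.encard_union_le _ _
    _ ≤ ((phi m : ℕ) : ℕ∞) + ((F.ncard : ℕ) : ℕ∞) :=
        add_le_add (h _) (hFfin.cast_ncard_eq).ge
    _ = ((phi m + F.ncard : ℕ) : ℕ∞) := by push_cast; rfl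

end Vale.Agent.P015.R3.H85
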