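import Vale.Agent.P015.R3.H85.Big

/-!
# P015, one cluster: components that are invariant under rotation
-/

open unitInterval

namespace Vale.Agent.P015.R3.H85

open GaussianInt

/-- two chains crossing a square have a common point -/
theorem cross_point {a b : ℕ → ℂ} {N M : ℕ} (hN : 0 < N) (hM : 0 < M) {R : ℝ}
    (ha : ∀ n ≤ N, |(a n).im| ≤ R) (hb : ∀ n ≤ M, |(b n).re| ≤ R)
    (a0 : (a 0).re ≤ -R) (a1 : R ≤ (a N).re) (b0 : (b 0).im ≤ -R) (b1 : R ≤ (b M).im) :
    ∃ n < N, ∃ m < M, ∃ s r : ℝ, 0 ≤ s ∧ s ≤ 1 ∧ 0 ≤ r ∧ r ≤ 1 ∧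
      a n + (s : ℂ) * (a (n + 1) - a n) = b m + (r : ℂ) * (b (m + 1) - b m) := by
  have hin : ∀ (K : ℕ) (t : I), 0 ≤ (t : ℝ) * K ∧ (t : ℝ) * K ≤ K := fun K t =>
    ⟨mul_nonneg t.2.1 (Nat.cast_nonneg _), mul_le_of_le_one_left (Nat.cast_nonneg _) t.2.2⟩
  obtain ⟨s, t, hst⟩ := P198.PlanarTop.crossing (-R) R (-R) R
    ⟨fun s => interp b M ((s : ℝ) * M), (continuous_interp b M).comp (by fun_prop)⟩
    ⟨fun t => interp a N ((t : ℝ) * N), (continuous_interp a N).comp (by fun_prop)⟩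
    (by
      intro s
      obtain ⟨m, hm, r, hr0, hr1, hr⟩ := interp_mem b hM (hin M s).1 (hin M s).2
      simp only [ContinuousMap.coe_mk]
      rw [hr]
      simpa using combo_le hr0 hr1 (abs_le.1 (hb m hm.le)) (abs_le.1 (hb (m + 1) hm)))
    (by
      intro t
      obtain ⟨n, hn, r, hr0, hr1, hr⟩ := interp_mem a hN (hin N t).1 (hin N t).2
      simp only [ContinuousMap.coe_mk]
      rw [hr]
      simpa using combo_le hr0 hr1 (abs_le.1 (ha n hn.le)) (abs_le.1 (ha (n + 1) hn)))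
    (by simpa [interp_zero] using b0)
    (by simpa [interp_of_ge b M le_rfl] using b1)
    (by simpa [interp_zero] using a0)
    (by simpa [interp_of_ge a N le_rfl] using a1)
  simp only [ContinuousMap.coe_mk] at hst
  obtain ⟨m, hm, r, hr0, hr1, hr⟩ := interp_mem b hM (hin M s).1 (hin M s).2
  obtain ⟨n, hn, q, hq0, hq1, hq⟩ := interp_mem a hN (hin N t).1 (hin N t).2
  exact ⟨n, hn, m, hm, q, r, hq0, hq1, hr0, hr1, by rw [← hq, ← hr, hst]⟩

/-- maximum norm -/
noncomputable def mx (z : ℂ) : ℝ := max |z.re| |z.im|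

theorem continuous_mx : Continuous mx := by
  unfold mx
  fun_prop

theorem mx_nonneg (z : ℂ) : 0 ≤ mx z := le_max_of_le_left (abs_nonneg _)

theorem mx_I (z : ℂ) : mx (Complex.I * z) = mx z := by
  unfold mx
  simp [max_comm]

theorem mx_neg (z : ℂ) : mx (-z) = mx z := by
  unfold mx
  simp

theorem norm_le_mx (z : ℂ) : ‖z‖ ≤ 2 * mx z := by
  have h := Complex.norm_le_abs_re_add_abs_im z
  have h1 : |z.re| ≤ mx z := le_max_left _ _
  have h2 : |z.im| ≤ mx z := le_max_right _ _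
  linarith

theorem toComplex_Ipt : toComplex ⟨0, 1⟩ = Complex.I := by
  apply Complex.ext <;> simp

/-- the part of `S` in a square -/
def box (S : Set GaussianInt) (R : ℝ) : Set GaussianInt := S ∩ {z | |mx (toComplex z)| ≤ R}

/-- leaving a square -/
theorem exists_exit {D R : ℝ} {S : Set GaussianInt} {x y : GaussianInt}
    (h : (walkGraph D S).Reachable x y) (hx : mx (toComplex x) ≤ R) (hy : R < mx (toComplex y)) :
    ∃ z w, (walkGraph D (box S R)).Reachable x z ∧ mx (toComplex z) ≤ R ∧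
      (walkGraph D S).Adj z w ∧ R < mx (toComplex w) := by
  obtain ⟨p⟩ := h
  induction p with
  | nil => exact absurd hx (not_le.2 hy)
  | @cons u v w huv p ih =>
    by_cases hv : mx (toComplex v) ≤ R
    · obtain ⟨a, b, h1, h2, h3, h4⟩ := ih hv hy
      refine ⟨a, b, SimpleGraph.Reachable.trans (SimpleGraph.Adj.reachable ?_) h1, h2, h3, h4⟩
      exact ⟨huv.1, ⟨huv.2.1, by
        change |mx (toComplex u)| ≤ R
        rwa [abs_of_nonneg (mx_nonneg _)]⟩, ⟨huv.2.2.1, by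
        change |mx (toComplex v)| ≤ R
        rwa [abs_of_nonneg (mx_nonneg _)]⟩, huv.2.2.2⟩
    · exact ⟨u, v, SimpleGraph.Reachable.refl _, hx, huv, not_le.1 hv⟩

theorem exists_cut {R : ℝ} {z w : ℂ} (hz : mx z ≤ R) (hw : R < mx w) :
    ∃ t : ℝ, 0 ≤ t ∧ t ≤ 1 ∧ mx (z + (t : ℂ) * (w - z)) = R := by
  have hc : ContinuousOn (fun t : ℝ => mx (z + (t : ℂ) * (w - z))) (Set.Icc 0 1) :=
    (continuous_mx.comp (by fun_prop)).continuousOn
  have h := intermediate_value_Icc (zero_le_one' ℝ) hc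
  have hR : R ∈ Set.Icc (mx (z + ((0 : ℝ) : ℂ) * (w - z))) (mx (z + ((1 : ℝ) : ℂ) * (w - z))) := by
    constructor
    · simpa using hz
    · simpa using hw.le
  obtain ⟨t, ht, hte⟩ := h hR
  exact ⟨t, ht.1, ht.2, hte⟩

/-- a point with maximum norm `R` can be rotated to the right side of the square -/
theorem exists_rot {R : ℝ} {c : ℂ} (hc : mx c = R) :
    ∃ k : ℕ, (Complex.I ^ k * c).re = R ∧ |(Complex.I ^ k * c).im| ≤ R := by
  have h1 : |c.re| ≤ R := hc ▸ le_max_left _ _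
  have h2 : |c.im| ≤ R := hc ▸ le_max_right _ _
  rcases max_choice |c.re| |c.im| with h | h
  · have h3 : |c.re| = R := by rw [← hc, mx, h]
    rcases abs_choice c.re with h4 | h4
    · exact ⟨0, by simp [← h3, h4], by simpa using h2⟩
    · refine ⟨2, ?_, ?_⟩
      · simp [← h3, h4]
      · simpa using h2
  · have h3 : |c.im| = R := by rw [← hc, mx, h]
    rcases abs_choice c.im with h4 | h4
    · refine ⟨3, ?_, ?_⟩
      · simp [pow_succ, ← h3, h4]
      · simpa [pow_succ] using h1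
    · refine ⟨1, ?_, ?_⟩
      · simp [← h3, h4]
      · simpa using h1

end Vale.Agent.P015.R3.H85
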