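import Vale.Agent.P015.R3.H85.Mirror

/-!
# P015, one cluster: two infinite components of `G_D`
-/

namespace Vale.Agent.P015.R3.H85

open GaussianInt

/-- `S` lies in an open quadrant, or in one of the four open sectors between the diagonals. -/
def InQuarter (S : Set GaussianInt) : Prop :=
  ∃ u : GaussianInt, IsUnit u ∧
    ((∀ x ∈ S, 0 < (u * x).re ∧ 0 < (u * x).im) ∨ ∀ x ∈ S, |(u * x).im| < (u * x).re)

theorem InQuarter.mono {S T : Set GaussianInt} (h : InQuarter T) (hST : S ⊆ T) : InQuarter S := by
  obtain ⟨u, hu, h | h⟩ := h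
  · exact ⟨u, hu, Or.inl fun x hx => h x (hST hx)⟩
  · exact ⟨u, hu, Or.inr fun x hx => h x (hST hx)⟩

theorem iu_four : iu ^ 4 = 1 := by decide

theorem rot_of_refl {D : ℝ} {S : Set GaussianInt} (hI : ∀ z ∈ S, iu * z ∈ S) {a b : ℕ}
    {x : GaussianInt} (ha : (walkGraph D S).Reachable x (refl a x))
    (hb : (walkGraph D S).Reachable x (refl b x)) :
    (walkGraph D S).Reachable x (iu ^ (b + 3 * a) * x) := by
  have h4 : iu ^ (3 * a + a) = 1 := by
    rw [show 3 * a + a = 4 * a by ring, pow_mul, iu_four, one_pow]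
  have h1 := reach_iu_pow hI (3 * a) ha
  rw [refl, ← mul_assoc, ← pow_add, h4, one_mul] at h1
  have h2 := reach_iu_pow hI b h1
  rw [← mul_assoc, ← pow_add] at h2
  exact hb.trans h2.symm

theorem rot_of_rot_three {D : ℝ} {S : Set GaussianInt} (hI : ∀ z ∈ S, iu * z ∈ S)
    {x : GaussianInt} (h : (walkGraph D S).Reachable x (iu ^ 3 * x)) :
    (walkGraph D S).Reachable x (iu * x) := by
  have h1 := reach_iu_pow hI 1 h
  rw [← mul_assoc, ← pow_add, show 1 + 3 = 4 by norm_num, iu_four, one_mul, pow_one] at h1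
  exact h1.symm

theorem half_sq : (Real.sqrt 2 / 2) * (Real.sqrt 2 / 2) = 1 / 2 := by
  have := Real.mul_self_sqrt (show (0 : ℝ) ≤ 2 by norm_num)
  linarith

theorem norm_diag {s : ℝ} (hs : s * s = 1 / 2) (e : ℝ) (he : e * e = 1) :
    ‖(⟨s, e * s⟩ : ℂ)‖ = 1 := by
  have h1 : ‖(⟨s, e * s⟩ : ℂ)‖ ^ 2 = 1 := by
    rw [← Complex.normSq_eq_norm_sq, Complex.normSq_mk]
    linear_combination (1 + e * e) * hs + (1 / 2) * he
  have h2 : 0 ≤ ‖(⟨s, e * s⟩ : ℂ)‖ := norm_nonneg _
  nlinarith

theorem star_of_refl_two {D : ℝ} {S : Set GaussianInt} (hI : ∀ z ∈ S, iu * z ∈ S)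
    {x : GaussianInt} (h : (walkGraph D S).Reachable x (iu * x))
    (h2 : (walkGraph D S).Reachable x (refl 2 x)) : (walkGraph D S).Reachable x (star x) := by
  have h3 := reach_iu_pow hI 2 h2
  rw [refl, ← mul_assoc, ← pow_add, show 2 + 2 = 4 by norm_num, iu_four, one_mul] at h3
  exact (reach_rot_pow hI h 2).trans h3

/-- a component is invariant under rotation and conjugation, or lies in a quarter-plane -/
theorem rot_or_quarter {D : ℝ} {S : Set GaussianInt} (hI : ∀ z ∈ S, iu * z ∈ S)
    (hC : ∀ z ∈ S, star z ∈ S) {x : GaussianInt} (hx : x ∈ S) :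
    ((walkGraph D S).Reachable x (iu * x) ∧ (walkGraph D S).Reachable x (star x)) ∨
      InQuarter {y | (walkGraph D S).Reachable x y} := by
  obtain ⟨s, hs⟩ : ∃ s : ℝ, s = Real.sqrt 2 / 2 := ⟨_, rfl⟩
  have hss : s * s = 1 / 2 := hs ▸ half_sq
  have hs0 : 0 < s := by
    rw [hs]
    positivity
  have h0 := side_or_refl (D := D) hI hC 0 (⟨0, -1⟩ : ℂ)
    (by
      have : (⟨0, -1⟩ : ℂ) = -Complex.I := by apply Complex.ext <;> simp
      rw [this, norm_neg, Complex.norm_I])
    (by
      intro z
      rw [refl, pow_zero, one_mul, toComplex_star]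
      apply Complex.ext <;> simp
      ring) hx
  have h2 := side_or_refl (D := D) hI hC 2 (1 : ℂ) (by simp)
    (by
      intro z
      rw [refl, toComplex_iu_pow_mul, toComplex_star]
      apply Complex.ext <;> simp
      ring) hx
  have h1 := side_or_refl (D := D) hI hC 1 (⟨s, 1 * s⟩ : ℂ) (norm_diag hss 1 (by norm_num))
    (by
      intro z
      rw [refl, toComplex_iu_pow_mul, toComplex_star]
      apply Complex.ext
      · simp
        linear_combination (2 * ((toComplex z).re - (toComplex z).im)) * hss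
      · simp
        linear_combination (-2 * ((toComplex z).re - (toComplex z).im)) * hss) hx
  have h3 := side_or_refl (D := D) hI hC 3 (⟨s, -1 * s⟩ : ℂ) (norm_diag hss (-1) (by norm_num))
    (by
      intro z
      rw [refl, toComplex_iu_pow_mul, toComplex_star]
      apply Complex.ext
      · simp [pow_succ]
        linear_combination (2 * ((toComplex z).re + (toComplex z).im)) * hss
      · simp [pow_succ]
        linear_combination (2 * ((toComplex z).re + (toComplex z).im)) * hss) hx
  have e0 : ∀ y : GaussianInt, ((⟨0, -1⟩ : ℂ) * toComplex y).re = (y.im : ℝ) := by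
    intro y
    simp
  have e2 : ∀ y : GaussianInt, ((1 : ℂ) * toComplex y).re = (y.re : ℝ) := by
    intro y
    simp
  have e1 : ∀ y : GaussianInt, ((⟨s, 1 * s⟩ : ℂ) * toComplex y).re = s * ((y.re : ℝ) - y.im) := by
    intro y
    simp
    ring
  have e3 : ∀ y : GaussianInt, ((⟨s, -1 * s⟩ : ℂ) * toComplex y).re = s * ((y.re : ℝ) + y.im) := by
    intro y
    simp
    ring
  simp only [e0] at h0
  simp only [e1] at h1
  simp only [e2] at h2
  simp only [e3] at h3
  -- the four units
  have u1 : IsUnit (⟨0, -1⟩ : GaussianInt) := IsUnit.of_mul_eq_one ⟨0, 1⟩ (by decide)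
  have u2 : IsUnit (⟨-1, 0⟩ : GaussianInt) := IsUnit.of_mul_eq_one ⟨-1, 0⟩ (by decide)
  have u3 : IsUnit (⟨0, 1⟩ : GaussianInt) := isUnit_I
  have hpair : ((walkGraph D S).Reachable x (refl 0 x) ∨ (walkGraph D S).Reachable x (refl 2 x)) →
      ((walkGraph D S).Reachable x (refl 1 x) ∨ (walkGraph D S).Reachable x (refl 3 x)) →
      (walkGraph D S).Reachable x (iu * x) := by
    rintro (ha | ha) (hb | hb)
    · simpa using rot_of_refl hI ha hb
    · exact rot_of_rot_three hI (by simpa using rot_of_refl hI ha hb)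
    · have := rot_of_refl hI ha hb
      rw [show 1 + 3 * 2 = 4 + 3 by norm_num, pow_add, iu_four, one_mul] at this
      exact rot_of_rot_three hI this
    · have := rot_of_refl hI ha hb
      rw [show 3 + 3 * 2 = 4 + 4 + 1 by norm_num, pow_add, pow_add, iu_four, one_mul, one_mul,
        pow_one] at this
      exact this
  have hpos : ∀ {a : ℝ}, 0 < s * a → 0 < a := fun h => (mul_pos_iff_of_pos_left hs0).1 h
  have hneg : ∀ {a : ℝ}, s * a < 0 → a < 0 := fun h => by
    by_contra hcon
    push Not at hcon
    linarith [mul_nonneg hs0.le hcon]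
  by_cases hA : (walkGraph D S).Reachable x (refl 0 x) ∨ (walkGraph D S).Reachable x (refl 2 x)
  · by_cases hB : (walkGraph D S).Reachable x (refl 1 x) ∨ (walkGraph D S).Reachable x (refl 3 x)
    · left
      have hrot := hpair hA hB
      refine ⟨hrot, ?_⟩
      rcases hA with hA | hA
      · simpa [refl] using hA
      · exact star_of_refl_two hI hrot hA
    · right
      rw [not_or] at hB
      rcases h1.resolve_left hB.1 with h1 | h1 <;> rcases h3.resolve_left hB.2 with h3 | h3
      · refine ⟨1, isUnit_one, Or.inr fun y hy => ?_⟩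
        have k1 : (y.im : ℝ) < y.re := by linarith [hpos (h1 y hy)]
        have k3 : -(y.im : ℝ) < y.re := by linarith [hpos (h3 y hy)]
        have k1' : y.im < y.re := by exact_mod_cast k1
        have k3' : -y.im < y.re := by exact_mod_cast k3
        rw [one_mul, abs_lt]
        omega
      · refine ⟨⟨0, 1⟩, u3, Or.inr fun y hy => ?_⟩
        have k1 : (y.im : ℝ) < y.re := by linarith [hpos (h1 y hy)]
        have k3 : (y.im : ℝ) < -y.re := by linarith [hneg (h3 y hy)]
        have k1' : y.im < y.re := by exact_mod_cast k1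
        have k3' : y.im < -y.re := by exact_mod_cast k3
        simp only [Zsqrtd.re_mul, Zsqrtd.im_mul, abs_lt]
        omega
      · refine ⟨⟨0, -1⟩, u1, Or.inr fun y hy => ?_⟩
        have k1 : (y.re : ℝ) < y.im := by linarith [hneg (h1 y hy)]
        have k3 : -(y.re : ℝ) < y.im := by linarith [hpos (h3 y hy)]
        have k1' : y.re < y.im := by exact_mod_cast k1
        have k3' : -y.re < y.im := by exact_mod_cast k3
        simp only [Zsqrtd.re_mul, Zsqrtd.im_mul, abs_lt]
        omega
      · refine ⟨⟨-1, 0⟩, u2, Or.inr fun y hy => ?_⟩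
        have k1 : (y.re : ℝ) < y.im := by linarith [hneg (h1 y hy)]
        have k3 : (y.re : ℝ) < -y.im := by linarith [hneg (h3 y hy)]
        have k1' : y.re < y.im := by exact_mod_cast k1
        have k3' : y.re < -y.im := by exact_mod_cast k3
        simp only [Zsqrtd.re_mul, Zsqrtd.im_mul, abs_lt]
        omega
  · right
    rw [not_or] at hA
    rcases h0.resolve_left hA.1 with h0 | h0 <;> rcases h2.resolve_left hA.2 with h2 | h2
    · refine ⟨1, isUnit_one, Or.inl fun y hy => ?_⟩
      have k1 : 0 < y.im := by exact_mod_cast h0 y hy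
      have k3 : 0 < y.re := by exact_mod_cast h2 y hy
      rw [one_mul]
      exact ⟨k3, k1⟩
    · refine ⟨⟨0, -1⟩, u1, Or.inl fun y hy => ?_⟩
      have k1 : 0 < y.im := by exact_mod_cast h0 y hy
      have k3 : y.re < 0 := by exact_mod_cast h2 y hy
      simp only [Zsqrtd.re_mul, Zsqrtd.im_mul]
      omega
    · refine ⟨⟨0, 1⟩, u3, Or.inl fun y hy => ?_⟩
      have k1 : y.im < 0 := by exact_mod_cast h0 y hy
      have k3 : 0 < y.re := by exact_mod_cast h2 y hy
      simp only [Zsqrtd.re_mul, Zsqrtd.im_mul]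
      omega
    · refine ⟨⟨-1, 0⟩, u2, Or.inl fun y hy => ?_⟩
      have k1 : y.im < 0 := by exact_mod_cast h0 y hy
      have k3 : y.re < 0 := by exact_mod_cast h2 y hy
      simp only [Zsqrtd.re_mul, Zsqrtd.im_mul]
      omega

theorem prime_iu {z : GaussianInt} (h : Prime z) : Prime (iu * z) :=
  ((associated_isUnit_mul_left_iff (show IsUnit iu from isUnit_I)).2
    (Associated.refl z)).symm.prime h

theorem prime_star {z : GaussianInt} (h : Prime z) : Prime (star z) := by
  have := (MulEquiv.prime_iff (starMulAut (R := GaussianInt)) (p := z)).2 h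
  simpa using this

theorem reach_of_moat {D : ℝ} {z w : {z : GaussianInt // Prime z}}
    (h : (moatGraph D).Reachable z w) : (walkGraph D {z | Prime z}).Reachable z.1 w.1 :=
  h.map (⟨Subtype.val, fun {a b} hab => ⟨fun e => hab.1 (Subtype.ext e), a.2, b.2, hab.2⟩⟩ :
    moatGraph D →g walkGraph D {z | Prime z})

theorem moat_of_reach {D : ℝ} {z w : GaussianInt} (h : (walkGraph D {z | Prime z}).Reachable z w)
    (hz : Prime z) (hw : Prime w) : (moatGraph D).Reachable ⟨z, hz⟩ ⟨w, hw⟩ := by
  obtain ⟨p⟩ := h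
  induction p with
  | nil => exact SimpleGraph.Reachable.refl _
  | @cons u v w huv p ih =>
    refine SimpleGraph.Reachable.trans (SimpleGraph.Adj.reachable ?_) (ih huv.2.2.1 hw)
    exact ⟨fun e => huv.1 (congrArg Subtype.val e), huv.2.2.2⟩

/-- An infinite component of `G_D` that lies in no quarter-plane is invariant under multiplication
by `i` and under conjugation, and it is unique. -/
theorem infinite_components {D : ℝ} {z : {z : GaussianInt // Prime z}}
    (hz : {x | (moatGraph D).Reachable z x}.Infinite)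
    (hq : ¬ InQuarter (Subtype.val '' {x | (moatGraph D).Reachable z x})) :
    (∀ x y : {z : GaussianInt // Prime z}, (moatGraph D).Reachable z x →
      (y.1 = ⟨0, 1⟩ * x.1 ∨ y.1 = star x.1) → (moatGraph D).Reachable z y) ∧
    ∀ w : {z : GaussianInt // Prime z}, {x | (moatGraph D).Reachable w x}.Infinite →
      ¬ InQuarter (Subtype.val '' {x | (moatGraph D).Reachable w x}) →
        (moatGraph D).Reachable z w := by
  have hsub : ∀ z : {z : GaussianInt // Prime z},
      Subtype.val '' {x | (moatGraph D).Reachable z x} ⊆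
        {y | (walkGraph D {z | Prime z}).Reachable z.1 y} := by
    rintro z _ ⟨x, hx, rfl⟩
    exact reach_of_moat hx
  have hI : ∀ z ∈ {z : GaussianInt | Prime z}, iu * z ∈ {z : GaussianInt | Prime z} :=
    fun _ h => prime_iu h
  have hC : ∀ z ∈ {z : GaussianInt | Prime z}, star z ∈ {z : GaussianInt | Prime z} :=
    fun _ h => prime_star h
  have hsym : ∀ z : {z : GaussianInt // Prime z},
      ¬ InQuarter (Subtype.val '' {x | (moatGraph D).Reachable z x}) →
        (walkGraph D {z | Prime z}).Reachable z.1 (iu * z.1) ∧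
          (walkGraph D {z | Prime z}).Reachable z.1 (star z.1) := fun z hn =>
    (rot_or_quarter (D := D) hI hC z.2).resolve_right fun h => hn (h.mono (hsub z))
  constructor
  · rintro x y hx (hy | hy)
    · have h1 := reach_of_moat hx
      have h2 := (hsym z hq).1.trans (by simpa using reach_iu_pow hI 1 h1)
      exact moat_of_reach (w := y.1) (by rw [hy]; exact h2) z.2 y.2
    · have h1 := reach_of_moat hx
      have h2 := (hsym z hq).2.trans (by simpa [refl] using reach_refl hI hC 0 h1)
      exact moat_of_reach (w := y.1) (by rw [hy]; exact h2) z.2 y.2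
  · intro w hw hqw
    refine moat_of_reach (rot_unique hI (hsym z hq).1 (hsym w hqw).1 ?_ ?_) z.2 w.2
    · exact (hz.image Subtype.val_injective.injOn).mono (hsub z)
    · exact (hw.image Subtype.val_injective.injOn).mono (hsub w)

end Vale.Agent.P015.R3.H85
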