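import Vale.Agent.P015.R3.H85.Planar
import Vale.Agent.P015.R3.H85.Limit

/-!
# P015, one cluster: at most one infinite component is invariant under rotation
-/

namespace Vale.Agent.P015.R3.H85

open GaussianInt

/-- the Gaussian integer `i` -/
def iu : GaussianInt := ⟨0, 1⟩

theorem toComplex_iu_pow_mul (k : ℕ) (z : GaussianInt) :
    toComplex (iu ^ k * z) = Complex.I ^ k * toComplex z := by
  rw [map_mul, map_pow, iu, toComplex_Ipt]

theorem iu_inj (k : ℕ) : Function.Injective (fun z : GaussianInt => iu ^ k * z) :=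
  mul_right_injective₀ (pow_ne_zero k isUnit_I.ne_zero)

theorem dist_iu_pow (k : ℕ) (z w : GaussianInt) :
    dist (toComplex (iu ^ k * z)) (toComplex (iu ^ k * w)) = dist (toComplex z) (toComplex w) := by
  rw [toComplex_iu_pow_mul, toComplex_iu_pow_mul, dist_eq_norm, dist_eq_norm, ← mul_sub, norm_mul,
    norm_pow, Complex.norm_I, one_pow, one_mul]

theorem mx_iu_pow (k : ℕ) (c : ℂ) : mx (Complex.I ^ k * c) = mx c := by
  induction k with
  | zero => simp
  | succ k ih => rw [pow_succ', mul_assoc, mx_I, ih]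

theorem mem_iu_pow {S : Set GaussianInt} (hI : ∀ z ∈ S, iu * z ∈ S) (k : ℕ) :
    ∀ z ∈ S, iu ^ k * z ∈ S := by
  induction k with
  | zero => intro z hz; simpa using hz
  | succ k ih =>
    intro z hz
    rw [pow_succ', mul_assoc]
    exact hI _ (ih z hz)

theorem reach_iu_pow {D : ℝ} {S : Set GaussianInt} (hI : ∀ z ∈ S, iu * z ∈ S) (k : ℕ)
    {x y : GaussianInt} (h : (walkGraph D S).Reachable x y) :
    (walkGraph D S).Reachable (iu ^ k * x) (iu ^ k * y) :=
  reach_map (T := S) (fun z => iu ^ k * z) (iu_inj k) (mem_iu_pow hI k) (dist_iu_pow k) h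

theorem box_iu {S : Set GaussianInt} (hI : ∀ z ∈ S, iu * z ∈ S) (R : ℝ) :
    ∀ z ∈ box S R, iu * z ∈ box S R := by
  intro z hz
  refine ⟨hI z hz.1, ?_⟩
  have h := hz.2
  change |mx (toComplex z)| ≤ R at h
  change |mx (toComplex (iu * z))| ≤ R
  have e := toComplex_iu_pow_mul 1 z
  rw [pow_one, pow_one] at e
  rw [e, mx_I]
  exact h

theorem reach_rot_pow {D : ℝ} {S : Set GaussianInt} (hI : ∀ z ∈ S, iu * z ∈ S) {x : GaussianInt}
    (h : (walkGraph D S).Reachable x (iu * x)) (k : ℕ) :
    (walkGraph D S).Reachable x (iu ^ k * x) := by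
  induction k with
  | zero => simp
  | succ k ih =>
    have h1 := reach_iu_pow hI k h
    rw [← mul_assoc, ← pow_succ] at h1
    exact ih.trans h1

/-- the curve from the left to the right side of a large square -/
theorem exists_curve {D : ℝ} {S : Set GaussianInt} (hI : ∀ z ∈ S, iu * z ∈ S) {x : GaussianInt}
    (h : (walkGraph D S).Reachable x (iu * x))
    (hinf : {y | (walkGraph D S).Reachable x y}.Infinite) :
    ∃ R₀ : ℝ, ∀ R, R₀ ≤ R → ∃ (N : ℕ) (A : ℕ → ℂ), 0 < N ∧ (∀ n ≤ N, |(A n).im| ≤ R) ∧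
      (A 0).re ≤ -R ∧ R ≤ (A N).re ∧
      ∀ n < N, ∀ s : ℝ, 0 ≤ s → s ≤ 1 → ∃ p : GaussianInt, (walkGraph D S).Reachable x p ∧
        dist (A n + (s : ℂ) * (A (n + 1) - A n)) (toComplex p) ≤ D / 2 := by
  obtain ⟨M₀, hM₀⟩ := exists_strip (fun z => mx (toComplex z)) (reach_rot_pow hI h 2)
  refine ⟨max M₀ (mx (toComplex x)), fun R hR => ?_⟩
  have hxR : mx (toComplex x) ≤ R := (le_max_right _ _).trans hR
  have hopp : (walkGraph D (box S R)).Reachable x (iu ^ 2 * x) :=
    hM₀ R ((le_max_left _ _).trans hR)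
  -- a far point
  obtain ⟨y, hy, hyR⟩ : ∃ y, (walkGraph D S).Reachable x y ∧ R < mx (toComplex y) := by
    by_contra hcon
    push Not at hcon
    refine hinf ((finite_ball (2 * R)).subset fun y hy => ?_)
    exact (norm_le_mx _).trans (by linarith [hcon y hy])
  obtain ⟨z, w, hxz, hz, hzw, hw⟩ := exists_exit hy hxR hyR
  obtain ⟨t, ht0, ht1, htc⟩ := exists_cut hz hw
  obtain ⟨k, hk1, hk2⟩ := exists_rot htc
  have hb := box_iu hI R
  -- the middle part
  have hmid : (walkGraph D (box S R)).Reachable (iu ^ (k + 2) * z) (iu ^ k * z) := by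
    have h1 := reach_iu_pow hb k hxz
    have h2 := reach_iu_pow hb (k + 2) hxz
    have h3 := reach_iu_pow hb k hopp
    rw [← mul_assoc, ← pow_add] at h3
    exact h2.symm.trans (h3.symm.trans h1)
  obtain ⟨N, a, a0, aN, ha⟩ := exists_chain hmid
  have hax : ∀ n ≤ N, mx (toComplex (a n)) ≤ R := by
    intro n hn
    rcases Nat.eq_zero_or_pos N with h0 | h0
    · have : n = 0 := by omega
      rw [this, a0, toComplex_iu_pow_mul, mx_iu_pow]
      exact hz
    · exact (le_abs_self _).trans (chain_mem h0 ha hn).2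
  -- reachability of the points that are used
  have hxz' : (walkGraph D S).Reachable x z := reach_mono Set.inter_subset_left hxz
  have hxw' : (walkGraph D S).Reachable x w := hxz'.trans hzw.reachable
  have hall : ∀ (j : ℕ) {y : GaussianInt}, (walkGraph D S).Reachable x y →
      (walkGraph D S).Reachable x (iu ^ j * y) := fun j y hy =>
    (reach_rot_pow hI h j).trans (reach_iu_pow hI j hy)
  have hra : ∀ n ≤ N, (walkGraph D S).Reachable x (a n) := by
    intro n hn
    have h1 := reach_mono (Set.inter_subset_left) (chain_reach ha hn)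
    rw [a0] at h1
    exact (hall (k + 2) hxz').trans h1
  obtain ⟨c, hc⟩ : ∃ c : ℂ, c = Complex.I ^ k * (toComplex z + (t : ℂ) * (toComplex w - toComplex z)) :=
    ⟨_, rfl⟩
  rw [← hc] at hk1 hk2
  have hI2 : Complex.I ^ (k + 2) = -Complex.I ^ k := by
    rw [pow_add, Complex.I_sq]
    ring
  have hdw : dist (toComplex z) (toComplex w) ≤ D := hzw.2.2.2
  refine ⟨N + 2, fun n => if n = 0 then -c else if n ≤ N + 1 then toComplex (a (n - 1)) else c,
    by omega, ?_, ?_, ?_, ?_⟩
  · intro n hn
    by_cases h0 : n = 0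
    · simpa [h0] using hk2
    · by_cases h1 : n ≤ N + 1
      · simp only [h0, h1, if_true, if_false]
        exact (le_max_right _ _).trans (hax (n - 1) (by omega))
      · simp only [h0, h1, if_false]
        exact hk2
  · simp [hk1]
  · simp [hk1]
  · intro n hn s hs0 hs1
    rcases Nat.eq_zero_or_pos n with h0 | h0
    · subst h0
      simp only [if_true, show ¬ (0 + 1 = 0) by omega, if_false, show 0 + 1 ≤ N + 1 by omega,
        show 0 + 1 - 1 = 0 by omega]
      rw [a0]
      have hP : -c + (s : ℂ) * (toComplex (iu ^ (k + 2) * z) - -c) =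
          toComplex (iu ^ (k + 2) * z) + ((t * (1 - s) : ℝ) : ℂ) *
            (toComplex (iu ^ (k + 2) * w) - toComplex (iu ^ (k + 2) * z)) := by
        rw [toComplex_iu_pow_mul, toComplex_iu_pow_mul, hI2, hc]
        push_cast
        ring
      rcases near_end (D := D) (mul_nonneg ht0 (by linarith)) (by nlinarith)
        ((dist_iu_pow (k + 2) z w).trans_le hdw) hP with h1 | h1
      · exact ⟨_, hall (k + 2) hxz', h1⟩
      · exact ⟨_, hall (k + 2) hxw', h1⟩
    · rcases Nat.lt_or_ge n (N + 1) with h1 | h1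
      · simp only [show ¬ n = 0 by omega, show ¬ n + 1 = 0 by omega, if_false,
          show n ≤ N + 1 by omega, show n + 1 ≤ N + 1 by omega, if_true]
        have h2 := ha (n - 1) (by omega)
        rw [show n - 1 + 1 = n + 1 - 1 by omega] at h2
        rcases near_end (D := D) hs0 hs1 h2.2.2.2 rfl with h3 | h3
        · exact ⟨_, hra (n - 1) (by omega), h3⟩
        · exact ⟨_, hra (n + 1 - 1) (by omega), h3⟩
      · have hn' : n = N + 1 := by omega
        subst hn'
        simp only [show ¬ N + 1 = 0 by omega, show ¬ N + 1 + 1 = 0 by omega, if_false, le_refl,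
          if_true, show ¬ N + 1 + 1 ≤ N + 1 by omega, show N + 1 - 1 = N by omega]
        rw [aN]
        have hP : toComplex (iu ^ k * z) + (s : ℂ) * (c - toComplex (iu ^ k * z)) =
            toComplex (iu ^ k * z) + ((s * t : ℝ) : ℂ) *
              (toComplex (iu ^ k * w) - toComplex (iu ^ k * z)) := by
          rw [toComplex_iu_pow_mul, toComplex_iu_pow_mul, hc]
          push_cast
          ring
        rcases near_end (D := D) (mul_nonneg hs0 ht0) (by nlinarith)
          ((dist_iu_pow k z w).trans_le hdw) hP with h1 | h1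
        · exact ⟨_, hall k hxz', h1⟩
        · exact ⟨_, hall k hxw', h1⟩

theorem mem_of_infinite {D : ℝ} {S : Set GaussianInt} {x p : GaussianInt}
    (h : {z | (walkGraph D S).Reachable x z}.Infinite) (hp : (walkGraph D S).Reachable x p) :
    p ∈ S := by
  by_cases e : x = p
  · obtain ⟨u, hu, hne⟩ := h.nontrivial.exists_ne x
    exact e ▸ (mem_of_reach_ne hu hne.symm).1
  · exact (mem_of_reach_ne hp e).2

/-- **Uniqueness.** Two infinite components that are invariant under rotation coincide. -/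
theorem rot_unique {D : ℝ} {S : Set GaussianInt} (hI : ∀ z ∈ S, iu * z ∈ S) {x y : GaussianInt}
    (hx : (walkGraph D S).Reachable x (iu * x)) (hy : (walkGraph D S).Reachable y (iu * y))
    (hxi : {z | (walkGraph D S).Reachable x z}.Infinite)
    (hyi : {z | (walkGraph D S).Reachable y z}.Infinite) : (walkGraph D S).Reachable x y := by
  obtain ⟨R₁, h₁⟩ := exists_curve hI hx hxi
  obtain ⟨R₂, h₂⟩ := exists_curve hI hy hyi
  obtain ⟨N, A, hN, hA, hA0, hA1, hAn⟩ := h₁ (max R₁ R₂) (le_max_left _ _)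
  obtain ⟨M, B, hM, hB, hB0, hB1, hBn⟩ := h₂ (max R₁ R₂) (le_max_right _ _)
  obtain ⟨n, hn, m, hm, s, r, hs0, hs1, hr0, hr1, he⟩ := cross_point (a := A)
    (b := fun k => Complex.I * B k) hN hM hA
    (by intro k hk; simpa using hB k hk) hA0 hA1 (by simpa using hB0) (by simpa using hB1)
  obtain ⟨p, hp, hpd⟩ := hAn n hn s hs0 hs1
  obtain ⟨q, hq, hqd⟩ := hBn m hm r hr0 hr1
  have hq' : (walkGraph D S).Reachable y (iu ^ 1 * q) :=
    (reach_rot_pow hI hy 1).trans (reach_iu_pow hI 1 hq)
  have hqd' : dist (Complex.I * B m + (r : ℂ) * (Complex.I * B (m + 1) - Complex.I * B m))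
      (toComplex (iu ^ 1 * q)) ≤ D / 2 := by
    have e : Complex.I * B m + (r : ℂ) * (Complex.I * B (m + 1) - Complex.I * B m) =
        Complex.I * (B m + (r : ℂ) * (B (m + 1) - B m)) := by ring
    rw [e, toComplex_iu_pow_mul, pow_one, dist_eq_norm, ← mul_sub, norm_mul, Complex.norm_I,
      one_mul, ← dist_eq_norm]
    exact hqd
  have hpq : dist (toComplex p) (toComplex (iu ^ 1 * q)) ≤ D := by
    have h3 := dist_triangle (toComplex p) (A n + (s : ℂ) * (A (n + 1) - A n))
      (toComplex (iu ^ 1 * q))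
    rw [dist_comm (toComplex p) (A n + (s : ℂ) * (A (n + 1) - A n))] at h3
    have h4 : dist (A n + (s : ℂ) * (A (n + 1) - A n)) (toComplex (iu ^ 1 * q)) ≤ D / 2 := by
      rw [he]
      exact hqd'
    linarith
  refine hp.trans (SimpleGraph.Reachable.trans ?_ hq'.symm)
  by_cases e : p = iu ^ 1 * q
  · rw [e]
  · have hpS : p ∈ S := mem_of_infinite hxi hp
    have hqS : iu ^ 1 * q ∈ S := mem_of_infinite hyi hq'
    exact SimpleGraph.Adj.reachable ⟨e, hpS, hqS, hpq⟩

end Vale.Agent.P015.R3.H85
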