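import Vale.Agent.P015.R3.H85.Defs
import Vale.Agent.P015.R3.H85.Cross

/-!
# P015, one cluster: two periodic clusters coincide
-/

namespace Vale.Agent.P015.R3.H85

open GaussianInt

theorem reach_map {D : ℝ} {S T : Set GaussianInt} (φ : GaussianInt → GaussianInt)
    (hinj : Function.Injective φ) (hS : ∀ z ∈ S, φ z ∈ T)
    (hd : ∀ z w, dist (toComplex (φ z)) (toComplex (φ w)) = dist (toComplex z) (toComplex w))
    {x y : GaussianInt} (h : (walkGraph D S).Reachable x y) :
    (walkGraph D T).Reachable (φ x) (φ y) :=
  h.map (⟨φ, fun {a b} hab => ⟨fun e => hab.1 (hinj e), hS _ hab.2.1, hS _ hab.2.2.1, by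
    rw [hd]; exact hab.2.2.2⟩⟩ : walkGraph D S →g walkGraph D T)

theorem reach_add {D : ℝ} {S T : Set GaussianInt} (u : GaussianInt) (hS : ∀ z ∈ S, z + u ∈ T)
    {x y : GaussianInt} (h : (walkGraph D S).Reachable x y) :
    (walkGraph D T).Reachable (x + u) (y + u) :=
  reach_map (fun z => z + u) (add_left_injective u) hS
    (fun z w => by simp only [map_add, dist_add_right]) h

theorem reach_mono {D : ℝ} {S T : Set GaussianInt} (hS : S ⊆ T) {x y : GaussianInt}
    (h : (walkGraph D S).Reachable x y) : (walkGraph D T).Reachable x y :=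
  reach_map id Function.injective_id hS (fun _ _ => rfl) h

theorem exists_strip {D : ℝ} {S : Set GaussianInt} (F : GaussianInt → ℝ) {x y : GaussianInt}
    (h : (walkGraph D S).Reachable x y) :
    ∃ M₀ : ℝ, ∀ M, M₀ ≤ M → (walkGraph D (S ∩ {z | |F z| ≤ M})).Reachable x y := by
  obtain ⟨p⟩ := h
  induction p with
  | nil => exact ⟨0, fun M _ => SimpleGraph.Reachable.refl _⟩
  | @cons u v w h p ih =>
    obtain ⟨M₀, hM⟩ := ih
    refine ⟨max M₀ (max |F u| |F v|), fun M hM' => ?_⟩
    have h1 := (le_max_left _ _).trans hM'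
    have h2 := (le_max_right _ _).trans hM'
    have h3 : (walkGraph D (S ∩ {z | |F z| ≤ M})).Adj u v :=
      ⟨h.1, ⟨h.2.1, (le_max_left _ _).trans h2⟩, ⟨h.2.2.1, (le_max_right _ _).trans h2⟩, h.2.2.2⟩
    exact h3.reachable.trans (hM M h1)

theorem exists_chain {D : ℝ} {S : Set GaussianInt} {x y : GaussianInt}
    (h : (walkGraph D S).Reachable x y) :
    ∃ (N : ℕ) (a : ℕ → GaussianInt), a 0 = x ∧ a N = y ∧
      ∀ n < N, (walkGraph D S).Adj (a n) (a (n + 1)) := by
  obtain ⟨p⟩ := h
  exact ⟨p.length, p.getVert, p.getVert_zero, p.getVert_length, fun n hn =>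
    p.adj_getVert_succ hn⟩

theorem chain_mem {D : ℝ} {S : Set GaussianInt} {N : ℕ} {a : ℕ → GaussianInt} (hN : 0 < N)
    (ha : ∀ n < N, (walkGraph D S).Adj (a n) (a (n + 1))) {n : ℕ} (hn : n ≤ N) : a n ∈ S := by
  rcases Nat.lt_or_ge n N with h | h
  · exact (ha n h).2.1
  · have e : n = N - 1 + 1 := by omega
    rw [e]
    exact (ha (N - 1) (by omega)).2.2.1

theorem chain_reach {D : ℝ} {S : Set GaussianInt} {N : ℕ} {a : ℕ → GaussianInt}
    (ha : ∀ n < N, (walkGraph D S).Adj (a n) (a (n + 1))) {n : ℕ} (hn : n ≤ N) :
    (walkGraph D S).Reachable (a 0) (a n) := by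
  induction n with
  | zero => exact SimpleGraph.Reachable.refl _
  | succ n ih => exact (ih (by omega)).trans (ha n (by omega)).reachable

theorem reach_periodic {D : ℝ} {S : Set GaussianInt} {v x : GaussianInt}
    (hS : ∀ z ∈ S, ∀ k : ℤ, z + k * v ∈ S) (h : (walkGraph D S).Reachable x (x + v)) (K : ℕ) :
    (walkGraph D S).Reachable (x - K * v) (x + K * v) := by
  have h1 : ∀ k : ℕ, (walkGraph D S).Reachable x (x + k * v) := by
    intro k
    induction k with
    | zero => simp
    | succ k ih =>
      have h2 := reach_add ((k : GaussianInt) * v) (fun z hz => by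
        have := hS z hz k
        push_cast at this
        exact this) h
      have h3 : x + v + (k : GaussianInt) * v = x + ((k + 1 : ℕ) : GaussianInt) * v := by
        push_cast
        ring
      rw [h3] at h2
      exact ih.trans h2
  have h4 := reach_add (-((K : GaussianInt) * v)) (fun z hz => by
    have := hS z hz (-K)
    push_cast at this
    rwa [neg_mul] at this) (h1 (2 * K))
  have h5 : x + ((2 * K : ℕ) : GaussianInt) * v + -((K : GaussianInt) * v) = x + K * v := by
    push_cast
    ring
  rw [h5, ← sub_eq_add_neg] at h4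
  exact h4

/-- linear coordinates with respect to the basis `v, w` of the plane -/
noncomputable def lin (v w : ℂ) : ℂ →ₗ[ℝ] ℂ where
  toFun z := ⟨(z.re * w.im - z.im * w.re) / (v.re * w.im - v.im * w.re),
    (v.re * z.im - v.im * z.re) / (v.re * w.im - v.im * w.re)⟩
  map_add' x y := by apply Complex.ext <;> simp <;> ring
  map_smul' c x := by apply Complex.ext <;> simp <;> ring

theorem lin_re (v w z : ℂ) :
    (lin v w z).re = (z.re * w.im - z.im * w.re) / (v.re * w.im - v.im * w.re) := rfl

theorem lin_im (v w z : ℂ) :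
    (lin v w z).im = (v.re * z.im - v.im * z.re) / (v.re * w.im - v.im * w.re) := rfl

theorem lin_injective {v w : ℂ} (h : v.re * w.im - v.im * w.re ≠ 0) :
    Function.Injective (lin v w) := by
  rw [injective_iff_map_eq_zero]
  intro z hz
  have h1 : z.re * w.im - z.im * w.re = 0 := by
    have := congrArg Complex.re hz
    rw [lin_re, Complex.zero_re, div_eq_zero_iff] at this
    exact this.resolve_right h
  have h2 : v.re * z.im - v.im * z.re = 0 := by
    have := congrArg Complex.im hz
    rw [lin_im, Complex.zero_im, div_eq_zero_iff] at this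
    exact this.resolve_right h
  apply Complex.ext
  · have : z.re * (v.re * w.im - v.im * w.re) = 0 := by linear_combination v.re * h1 + w.re * h2
    exact (mul_eq_zero.1 this).resolve_right h
  · have : z.im * (v.re * w.im - v.im * w.re) = 0 := by linear_combination v.im * h1 + w.im * h2
    exact (mul_eq_zero.1 this).resolve_right h

theorem lin_fst {v w : ℂ} (h : v.re * w.im - v.im * w.re ≠ 0) : lin v w v = 1 := by
  apply Complex.ext
  · rw [lin_re, div_self h, Complex.one_re]
  · rw [lin_im, Complex.one_im]
    simp [mul_comm]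

theorem lin_snd {v w : ℂ} (h : v.re * w.im - v.im * w.re ≠ 0) : lin v w w = Complex.I := by
  apply Complex.ext
  · rw [lin_re, Complex.I_re]
    simp [mul_comm]
  · rw [lin_im, div_self h, Complex.I_im]

/-- Two walks with independent periods cross. -/
theorem reach_of_independent {D : ℝ} {S : Set GaussianInt} {x y v w : GaussianInt}
    (hv : ∀ z ∈ S, ∀ k : ℤ, z + k * v ∈ S) (hw : ∀ z ∈ S, ∀ k : ℤ, z + k * w ∈ S)
    (hdet : (toComplex v).re * (toComplex w).im - (toComplex v).im * (toComplex w).re ≠ 0)
    (hx : (walkGraph D S).Reachable x (x + v)) (hy : (walkGraph D S).Reachable y (y + w)) :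
    (walkGraph D S).Reachable x y := by
  set L := lin (toComplex v) (toComplex w) with hL
  have hLv : L (toComplex v) = 1 := lin_fst hdet
  have hLw : L (toComplex w) = Complex.I := lin_snd hdet
  have hmulv : ∀ (z : GaussianInt) (k : ℤ), L (toComplex (z + k * v)) = L (toComplex z) + k := by
    intro z k
    rw [map_add, map_mul, map_intCast, map_add]
    have : ((k : ℂ)) * toComplex v = ((k : ℝ)) • toComplex v := by
      rw [Complex.real_smul]
      push_cast
      rfl
    rw [this, map_smul, hLv]
    simp
  have hmulw : ∀ (z : GaussianInt) (k : ℤ),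
      L (toComplex (z + k * w)) = L (toComplex z) + k * Complex.I := by
    intro z k
    rw [map_add, map_mul, map_intCast, map_add]
    have : ((k : ℂ)) * toComplex w = ((k : ℝ)) • toComplex w := by
      rw [Complex.real_smul]
      push_cast
      rfl
    rw [this, map_smul, hLw]
    simp
  obtain ⟨M₁, hM₁⟩ := exists_strip (fun z => (L (toComplex z)).im) hx
  obtain ⟨M₂, hM₂⟩ := exists_strip (fun z => (L (toComplex z)).re) hy
  obtain ⟨M, hM⟩ : ∃ M : ℝ, M = max 1 (max M₁ M₂) := ⟨_, rfl⟩
  have hM0 : 1 ≤ M := hM ▸ le_max_left _ _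
  have hx' := hM₁ M (hM ▸ (le_max_left _ _).trans (le_max_right _ _))
  have hy' := hM₂ M (hM ▸ (le_max_right _ _).trans (le_max_right _ _))
  obtain ⟨K, hK⟩ := exists_nat_ge
    (M + max |(L (toComplex x)).re| |(L (toComplex y)).im|)
  have hK1 : M + |(L (toComplex x)).re| ≤ K := by
    linarith [le_max_left |(L (toComplex x)).re| |(L (toComplex y)).im|]
  have hK2 : M + |(L (toComplex y)).im| ≤ K := by
    linarith [le_max_right |(L (toComplex x)).re| |(L (toComplex y)).im|]
  have px := reach_periodic (S := S ∩ {z | |(L (toComplex z)).im| ≤ M}) (v := v)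
    (fun z hz k => ⟨hv z hz.1 k, by
    have h := hz.2
    simp only [Set.mem_ofPred_eq] at h ⊢
    rw [hmulv]
    simpa using h⟩) hx' K
  have py := reach_periodic (S := S ∩ {z | |(L (toComplex z)).re| ≤ M}) (v := w)
    (fun z hz k => ⟨hw z hz.1 k, by
    have h := hz.2
    simp only [Set.mem_ofPred_eq] at h ⊢
    rw [hmulw]
    simpa using h⟩) hy' K
  obtain ⟨N, a, a0, aN, ha⟩ := exists_chain px
  obtain ⟨N', b, b0, bN, hb⟩ := exists_chain py
  -- values at the ends
  have e1 : (L (toComplex (a 0))).re = (L (toComplex x)).re - K := by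
    have := hmulv x (-K)
    rw [a0, show x - (K : GaussianInt) * v = x + ((-K : ℤ) : GaussianInt) * v by
      push_cast; ring, this]
    simp
    ring
  have e2 : (L (toComplex (a N))).re = (L (toComplex x)).re + K := by
    have := hmulv x K
    rw [aN, show x + (K : GaussianInt) * v = x + ((K : ℤ) : GaussianInt) * v by
      push_cast; ring, this]
    simp
  have e3 : (L (toComplex (b 0))).im = (L (toComplex y)).im - K := by
    have := hmulw y (-K)
    rw [b0, show y - (K : GaussianInt) * w = y + ((-K : ℤ) : GaussianInt) * w by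
      push_cast; ring, this]
    simp
    ring
  have e4 : (L (toComplex (b N'))).im = (L (toComplex y)).im + K := by
    have := hmulw y K
    rw [bN, show y + (K : GaussianInt) * w = y + ((K : ℤ) : GaussianInt) * w by
      push_cast; ring, this]
    simp
  have b1 := abs_le.1 (le_refl |(L (toComplex x)).re|)
  have b2 := abs_le.1 (le_refl |(L (toComplex y)).im|)
  have hNpos : 0 < N := by
    rcases Nat.eq_zero_or_pos N with h | h
    · rw [h] at e2
      rw [e1] at e2
      linarith [abs_nonneg (L (toComplex x)).re]
    · exact h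
  have hN'pos : 0 < N' := by
    rcases Nat.eq_zero_or_pos N' with h | h
    · rw [h] at e4
      rw [e3] at e4
      linarith [abs_nonneg (L (toComplex y)).im]
    · exact h
  obtain ⟨n, hn, m, hm, hnm⟩ := cross_chain (D := D) (a := fun n => toComplex (a n))
    (b := fun n => toComplex (b n)) hNpos hN'pos L (lin_injective hdet) (A := -M) (B := M)
    (C := -M) (E := M)
    (fun n hn => abs_le.1 (chain_mem hNpos ha hn).2)
    (fun n hn => abs_le.1 (chain_mem hN'pos hb hn).2)
    (by rw [e1]; linarith) (by rw [e2]; linarith)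
    (by rw [e3]; linarith) (by rw [e4]; linarith)
    (fun n hn => (ha n hn).2.2.2) (fun n hn => (hb n hn).2.2.2)
  -- the two walks meet
  have han := (chain_mem hNpos ha hn).1
  have hbm := (chain_mem hN'pos hb hm).1
  have hab : (walkGraph D S).Reachable (a n) (b m) := by
    by_cases e : a n = b m
    · rw [e]
    · exact SimpleGraph.Adj.reachable ⟨e, han, hbm, hnm⟩
  have h1 : (walkGraph D S).Reachable (a 0) (a n) :=
    reach_mono Set.inter_subset_left (chain_reach ha hn)
  have h2 : (walkGraph D S).Reachable (b 0) (b m) :=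
    reach_mono Set.inter_subset_left (chain_reach hb hm)
  -- and the base points are joined to the ends
  have h3 : ∀ k : ℕ, (walkGraph D S).Reachable (x - k * v) x := by
    intro k
    induction k with
    | zero => simp
    | succ k ih =>
      have h := reach_add (-(((k + 1 : ℕ) : GaussianInt) * v)) (fun z hz => by
        have := hv z hz (-(k + 1 : ℕ))
        rw [Int.cast_neg, neg_mul, Int.cast_natCast] at this
        exact this) hx
      have e : x + v + -(((k + 1 : ℕ) : GaussianInt) * v) = x - k * v := by
        push_cast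
        ring
      rw [e, ← sub_eq_add_neg] at h
      exact h.trans ih
  have h4 : ∀ k : ℕ, (walkGraph D S).Reachable (y - k * w) y := by
    intro k
    induction k with
    | zero => simp
    | succ k ih =>
      have h := reach_add (-(((k + 1 : ℕ) : GaussianInt) * w)) (fun z hz => by
        have := hw z hz (-(k + 1 : ℕ))
        rw [Int.cast_neg, neg_mul, Int.cast_natCast] at this
        exact this) hy
      have e : y + w + -(((k + 1 : ℕ) : GaussianInt) * w) = y - k * w := by
        push_cast
        ring
      rw [e, ← sub_eq_add_neg] at h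
      exact h.trans ih
  rw [a0] at h1
  rw [b0] at h2
  exact (h3 K).symm.trans (h1.trans (hab.trans (h2.symm.trans (h4 K))))

end Vale.Agent.P015.R3.H85
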